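import Vale.Agent.P148.R2.H598.Lln4
import Vale.Agent.P148.R2.H566.Omega

/-!
# The row lln of the middle assembly

`mxs M v` : the largest square of a partial sum of `v` over a cyclic interval. `lln_row` : the row
`lln` of `H566.meu_of_rows3` from N5 (`lln_UB`) and the calibration (`slope` small).
-/

namespace Vale.Agent.P148.R2.H598

open MeasureTheory ProbabilityTheory Filter Topology N Vale.Agent.P148.R2.H504
open _root_.P148 _root_.P148.H729
open Vale.Agent.P148.R2.H566 (UB Ev EvMean Scene)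
open scoped ComplexConjugate ENNReal NNReal

universe u

/-- The largest square of a partial sum of `v`. -/
noncomputable def mxs (M : ℕ) (v : ℕ → ℂ) : ℝ≥0∞ :=
  ⨆ (i : ℕ) (_ : i ≤ nc M) (j : ℕ) (_ : j ≤ nc M), ENNReal.ofReal (‖arcSum (nc M) v i j‖ ^ 2)

theorem le_mxs {M : ℕ} (v : ℕ → ℂ) {i j : ℕ} (hi : i ≤ nc M) (hj : j ≤ nc M) :
    ENNReal.ofReal (‖arcSum (nc M) v i j‖ ^ 2) ≤ mxs M v := by
  unfold mxs
  exact le_iSup₂_of_le i hi (le_iSup₂_of_le j hj le_rfl)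

theorem mxs_le {M : ℕ} (hM : 0 < M) (c : ℂ) (v : ℕ → ℂ) :
    mxs M v ≤ 72 * ENNReal.ofReal (‖c‖ ^ 2) + 2 * dv M c v := by
  unfold mxs
  exact iSup₂_le fun i hi => iSup₂_le fun j hj => arcSum_sq_le' hM c v hi hj

/-- N5 for the scenes `s M T` with the values `v M T i`: the good event, the local means and the
quenched data. -/
structure LlnData (s : ℕ → Set Pt → Scene) (v : ∀ M T, (s M T).ι → ℕ → ℂ) (q : ℕ)
    (m : ℕ → ℕ → Set Pt → ℂ) (C : ℝ) (M : ℕ) : Prop where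
  ub : ∃ G : Set Pt → Prop, Ev.{u} G ∧ (∀ T, G T → ∑ i, (s M T).p i ≤ 1) ∧
    ∃ K : ℝ, ∀ (Ω : Type u) [MeasurableSpace Ω] (P : Measure Ω)
    [IsProbabilityMeasure P] (S : Ω → Set Pt) (lam : ℝ≥0), IsColouredPoisson P S lam →
    K ≤ lam → UB P (fun ω => ⨆ _ : G (S ω), ∑ i, (s M (S ω)).p i *
      dv M (slope P S M q (m M)) (v M (S ω) i)) (ENNReal.ofReal (err C M))

/-- **Row lln.** -/
theorem lln_row {s : ℕ → Set Pt → Scene} {v : ∀ M T, (s M T).ι → ℕ → ℂ} {q : ℕ}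
    {m : ℕ → ℕ → Set Pt → ℂ} {C : ℝ} (hC : 0 ≤ C)
    (hN5 : ∀ᶠ M in atTop, LlnData.{u} s v q m C M)
    (hcal : ∀ ε : ℝ, 0 < ε → ∀ᶠ M in atTop, ∃ K : ℝ, ∀ (Ω : Type u) [MeasurableSpace Ω]
      (P : Measure Ω) [IsProbabilityMeasure P] (S : Ω → Set Pt) (lam : ℝ≥0),
      IsColouredPoisson P S lam → K ≤ lam → ‖slope P S M q (m M)‖ ≤ ε)
    {ε : ℝ} (hε : 0 < ε) :
    ∀ᶠ M in atTop, ∃ G : Set Pt → Prop, Ev.{u} G ∧
      EvMean.{u} (fun T => ⨆ _ : G T, ∑ i, (s M T).p i * mxs M (v M T i)) (ENNReal.ofReal ε) := by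
  have h1 : ∀ᶠ M : ℕ in atTop, err C M < ε / 4 :=
    (tendsto_err C).eventually (gt_mem_nhds (by positivity))
  have hδ : 0 < Real.sqrt (ε / 144) := Real.sqrt_pos.2 (by positivity)
  filter_upwards [hN5, hcal _ hδ, h1, eventually_gt_atTop 0] with M hM hM1 hM2 hM0
  obtain ⟨G, hG, hp, K, hK⟩ := hM.ub
  obtain ⟨K', hK'⟩ := hM1
  refine ⟨G, hG, max K K', fun Ω _ P _ S lam hS hl => ?_⟩
  have h2 := hK Ω P S lam hS ((le_max_left _ _).trans hl)
  have h3 := hK' Ω P S lam hS ((le_max_right _ _).trans hl)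
  set c := slope P S M q (m M) with hc
  have h4 : ‖c‖ ^ 2 ≤ ε / 144 := by
    calc ‖c‖ ^ 2 ≤ Real.sqrt (ε / 144) ^ 2 := pow_le_pow_left₀ (norm_nonneg _) h3 2
      _ = ε / 144 := Real.sq_sqrt (by positivity)
  have h5 : UB P (fun _ => ENNReal.ofReal (ε / 2)) (ENNReal.ofReal (ε / 2)) :=
    UB.const (Eventually.of_forall fun _ => le_rfl)
  refine (h5.add (h2.const_mul 2)).mono (Eventually.of_forall fun ω => ?_) ?_
  · refine iSup_le fun hT => ?_
    rw [iSup_pos hT]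
    have h6 : ∀ i, (s M (S ω)).p i * mxs M (v M (S ω) i) ≤
        (s M (S ω)).p i * ENNReal.ofReal (ε / 2) +
          2 * ((s M (S ω)).p i * dv M c (v M (S ω) i)) := by
      intro i
      have h7 : mxs M (v M (S ω) i) ≤ ENNReal.ofReal (ε / 2) + 2 * dv M c (v M (S ω) i) := by
        refine (mxs_le hM0 c _).trans ?_
        gcongr
        have e72 : (72 : ℝ≥0∞) = ENNReal.ofReal 72 := by norm_num
        rw [e72, ← ENNReal.ofReal_mul (by norm_num)]
        apply ENNReal.ofReal_le_ofReal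
        linarith
      calc (s M (S ω)).p i * mxs M (v M (S ω) i)
          ≤ (s M (S ω)).p i * (ENNReal.ofReal (ε / 2) + 2 * dv M c (v M (S ω) i)) := by gcongr
        _ = _ := by ring
    calc ∑ i, (s M (S ω)).p i * mxs M (v M (S ω) i)
        ≤ ∑ i, ((s M (S ω)).p i * ENNReal.ofReal (ε / 2) +
          2 * ((s M (S ω)).p i * dv M c (v M (S ω) i))) := Finset.sum_le_sum fun i _ => h6 i
      _ = (∑ i, (s M (S ω)).p i) * ENNReal.ofReal (ε / 2) +
          2 * ∑ i, (s M (S ω)).p i * dv M c (v M (S ω) i) := by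
        rw [Finset.sum_add_distrib, ← Finset.sum_mul, ← Finset.mul_sum]
      _ ≤ 1 * ENNReal.ofReal (ε / 2) +
          2 * ∑ i, (s M (S ω)).p i * dv M c (v M (S ω) i) := by
        gcongr
        exact hp _ hT
      _ = _ := by rw [one_mul]
  · have e2 : (2 : ℝ≥0∞) = ENNReal.ofReal 2 := by norm_num
    have h8 : 0 ≤ err C M := by
      unfold err; positivity
    rw [e2, ← ENNReal.ofReal_mul (by norm_num), ← ENNReal.ofReal_add (by positivity) (by positivity)]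
    apply ENNReal.ofReal_le_ofReal
    linarith

/-- N5 for the scenes from the quenched data. -/
theorem LlnData.of_quen {s : ℕ → Set Pt → Scene} {v : ∀ M T, (s M T).ι → ℕ → ℂ} {q r : ℕ}
    {m : ℕ → ℕ → Set Pt → ℂ} {R K : ℝ} {M : ℕ} (hM : 0 < M) (hK : 0 ≤ K) (hR : 4 * R ≤ r + 1)
    (hm : Means M q R K (m M)) {G : Set Pt → Prop} (hG : Ev.{u} G)
    (w : ∀ T, (s M T).ι → ℝ) (hw : ∀ T, G T → ∀ i, (s M T).p i = ENNReal.ofReal (w T i))
    (hQ : ∀ T, G T → Quen M r K (w T) (fun k i => v M T i k) (fun k => m M k T)) :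
    LlnData.{u} s v q m (cN5 K r q) M := by
  refine ⟨G, hG, fun T hT => ?_, 0, fun Ω _ P _ S lam hS _ => ?_⟩
  · have h1 := (hQ T hT).w1
    calc ∑ i, (s M T).p i = ∑ i, ENNReal.ofReal (w T i) :=
          Finset.sum_congr rfl fun i _ => hw T hT i
      _ = ENNReal.ofReal (∑ i, w T i) :=
          (ENNReal.ofReal_sum_of_nonneg fun i _ => (hQ T hT).w0 i).symm
      _ = 1 := by rw [h1]; norm_num
      _ ≤ 1 := le_rfl
  · have h1 := lln_UB (P := P) (S := S) hS hm hM hK hR (α := fun ω => (s M (S ω)).ι)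
      (fun ω => w (S ω)) (fun ω k i => v M (S ω) i k) {ω | G (S ω)} (fun ω hω => hQ (S ω) hω)
    refine h1.mono (Eventually.of_forall fun ω => ?_) le_rfl
    refine iSup_le fun hT => ?_
    rw [iSup_pos (show ω ∈ {ω | G (S ω)} from hT)]
    refine Finset.sum_le_sum fun i _ => ?_
    rw [hw _ hT i]

end Vale.Agent.P148.R2.H598
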