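import Vale.Agent.P148.R2.H504.Fin
import Vale.Agent.P148.R2.H826.Eq2

/-!
# Row N5, level 2 (annealed): independence and assembly

`m k` are functions of the points in the window `win M R k` (open square of half side `R a` centred
at the centre of the cell `k`), bounded by `K a ^ 2` in square, equivariant away from the corners.
Under a coloured Poisson process the law of large numbers holds with an error `err C M` which does
not depend on the intensity; combined with the quenched level (`Quen`) in `lln_ring`.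
-/

namespace Vale.Agent.P148.R2.H598

open MeasureTheory ProbabilityTheory Finset Filter Topology N Vale.Agent.P148.R2.H504
open _root_.P148 _root_.P148.H729
open scoped ComplexConjugate ENNReal NNReal

/-! ### Geometry of the windows -/

/-- The sup norm. -/
noncomputable def sn (z : ℂ) : ℝ := max |z.re| |z.im|

theorem sn_I (z : ℂ) : sn (Complex.I * z) = sn z := by
  unfold sn
  simp only [Complex.mul_re, Complex.mul_im, Complex.I_re, Complex.I_im, zero_mul, one_mul,
    zero_sub, zero_add]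
  rw [abs_neg, max_comm]

theorem sn_I_pow (s : ℕ) (z : ℂ) : sn (Complex.I ^ s * z) = sn z := by
  induction s with
  | zero => simp
  | succ s ih => rw [pow_succ', mul_assoc, sn_I, ih]

theorem sn_neg (z : ℂ) : sn (-z) = sn z := by
  unfold sn; simp

theorem sn_sub_comm (z w : ℂ) : sn (z - w) = sn (w - z) := by
  rw [← sn_neg, neg_sub]

/-- The window of the `k`-th piece. -/
noncomputable def win (M : ℕ) (R : ℝ) (k : ℕ) : Set ℂ := csq (cellC M k) (R * ms M)

theorem isOpen_csq (z : ℂ) (r : ℝ) : IsOpen (csq z r) := by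
  have h1 : IsOpen {w : ℂ | |w.re - z.re| < r} :=
    isOpen_lt (by fun_prop) continuous_const
  have h2 : IsOpen {w : ℂ | |w.im - z.im| < r} :=
    isOpen_lt (by fun_prop) continuous_const
  exact h1.inter h2

theorem measurableSet_win (M : ℕ) (R : ℝ) (k : ℕ) : MeasurableSet (win M R k) :=
  (isOpen_csq _ _).measurableSet

theorem disjoint_csq {z w : ℂ} {r : ℝ} (h : 2 * r ≤ sn (z - w)) : Disjoint (csq z r) (csq w r) := by
  rw [Set.disjoint_left]
  rintro u ⟨h1, h2⟩ ⟨h3, h4⟩
  have h5 : sn (z - w) < 2 * r := by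
    unfold sn
    rw [abs_lt] at h1 h2 h3 h4
    apply max_lt <;> rw [abs_lt] <;> simp only [Complex.sub_re, Complex.sub_im] <;>
      constructor <;> linarith
  linarith

/-- Centre of the cell in the coordinates of its side. -/
theorem cellC_side (M s p : ℕ) (hp : p ≤ 2 * M) :
    cellC M (s * (2 * M + 1) + p) = Complex.I ^ s *
      ⟨1 + ms M / 2, -1 + ms M / 2 + (p : ℕ) * ms M⟩ := by
  unfold cellC
  have h1 : (s * (2 * M + 1) + p) / (2 * M + 1) = s := by
    rw [mul_comm, Nat.mul_add_div (by omega), Nat.div_eq_of_lt (by omega : p < 2 * M + 1),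
      add_zero]
  have h2 : (s * (2 * M + 1) + p) % (2 * M + 1) = p := by
    rw [mul_comm, Nat.mul_add_mod, Nat.mod_eq_of_lt (by omega : p < 2 * M + 1)]
  rw [h1, h2]

theorem not_near {n r i j : ℕ} (hj : j < n) (h : j ∉ near n r i) :
    ∀ t ≤ r, (i + t) % n ≠ j ∧ (j + t) % n ≠ i := by
  intro t ht
  unfold near at h
  rw [mem_filter, mem_range] at h
  constructor
  · intro h1; exact h ⟨hj, t, ht, Or.inl h1⟩
  · intro h1; exact h ⟨hj, t, ht, Or.inr h1⟩

/-- If `j` is `t` steps after `i` then `r < t`. -/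
theorem lt_of_not_near {n r i j t : ℕ} (hj : j < n) (h : j ∉ near n r i)
    (ht : (i + t) % n = j ∨ (j + t) % n = i) : r < t := by
  by_contra hc
  rw [not_lt] at hc
  have := not_near hj h t hc
  rcases ht with h1 | h1
  · exact this.1 h1
  · exact this.2 h1

theorem one_side {M p q r : ℕ} (hM : 0 < M) (h : r < q - p ∨ r < p - q) :
    ((r : ℝ) + 1) / 2 * ms M ≤ sn ((⟨1 + ms M / 2, -1 + ms M / 2 + (p : ℕ) * ms M⟩ : ℂ) -
      ⟨1 + ms M / 2, -1 + ms M / 2 + (q : ℕ) * ms M⟩) := by
  have h0 := ms_pos hM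
  have hr : (0 : ℝ) ≤ r := Nat.cast_nonneg _
  refine le_trans ?_ (le_max_right _ _)
  simp only [Complex.sub_im]
  have e : -1 + ms M / 2 + (p : ℕ) * ms M - (-1 + ms M / 2 + (q : ℕ) * ms M) =
      ((p : ℝ) - q) * ms M := by ring
  rw [e, abs_mul, abs_of_pos h0]
  apply mul_le_mul_of_nonneg_right _ h0.le
  rcases h with h | h
  · have : (r : ℝ) + 1 + p ≤ q := by exact_mod_cast (by omega : r + 1 + p ≤ q)
    rw [abs_sub_comm]
    refine le_trans ?_ (le_abs_self _)
    linarith
  · have : (r : ℝ) + 1 + q ≤ p := by exact_mod_cast (by omega : r + 1 + q ≤ p)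
    refine le_trans ?_ (le_abs_self _)
    linarith

theorem two_side {M p q r : ℕ} (hM : 0 < M) (hp : p ≤ 2 * M) (h : r < 2 * M - p + (q + 1)) :
    ((r : ℝ) + 1) / 2 * ms M ≤ sn ((⟨1 + ms M / 2, -1 + ms M / 2 + (p : ℕ) * ms M⟩ : ℂ) -
      Complex.I * ⟨1 + ms M / 2, -1 + ms M / 2 + (q : ℕ) * ms M⟩) := by
  have h0 := ms_pos hM
  have h1 := M_mul_ms hM
  have h2 : (r : ℝ) + 1 ≤ (2 * M - p) + (q + 1) := by
    have : r + 1 + p ≤ 2 * M + (q + 1) := by omega
    have h3 : ((r + 1 + p : ℕ) : ℝ) ≤ ((2 * M + (q + 1) : ℕ) : ℝ) := by exact_mod_cast this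
    push_cast at h3
    linarith
  unfold sn
  simp only [Complex.sub_re, Complex.sub_im, Complex.mul_re, Complex.mul_im, Complex.I_re,
    Complex.I_im, zero_mul, one_mul, zero_sub, zero_add, sub_neg_eq_add]
  rcases le_total ((2 * M : ℝ) - p) (q + 1) with hle | hle
  · refine le_trans ?_ (le_max_left _ _)
    refine le_trans ?_ (le_abs_self _)
    have : 1 + ms M / 2 + (-1 + ms M / 2 + (q : ℕ) * ms M) = (q + 1) * ms M := by ring
    rw [this]
    apply mul_le_mul_of_nonneg_right _ h0.le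
    linarith
  · refine le_trans ?_ (le_max_right _ _)
    rw [abs_sub_comm]
    refine le_trans ?_ (le_abs_self _)
    have : 1 + ms M / 2 - (-1 + ms M / 2 + (p : ℕ) * ms M) = (2 * M - p) * ms M := by
      have : (2 * M - p) * ms M = 2 * (M * ms M) - p * ms M := by ring
      rw [this, h1]; ring
    rw [this]
    apply mul_le_mul_of_nonneg_right _ h0.le
    linarith

theorem three_side {M p q r : ℕ} (hM : 0 < M) (h : r + 1 ≤ 2 * (2 * M + 1)) :
    ((r : ℝ) + 1) / 2 * ms M ≤ sn ((⟨1 + ms M / 2, -1 + ms M / 2 + (p : ℕ) * ms M⟩ : ℂ) -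
      Complex.I ^ 2 * ⟨1 + ms M / 2, -1 + ms M / 2 + (q : ℕ) * ms M⟩) := by
  have h0 := ms_pos hM
  have h1 := M_mul_ms hM
  rw [Complex.I_sq]
  unfold sn
  refine le_trans ?_ (le_max_left _ _)
  refine le_trans ?_ (le_abs_self _)
  simp only [neg_mul, one_mul, sub_neg_eq_add, Complex.add_re]
  have h2 : (r : ℝ) + 1 ≤ 2 * (2 * M + 1) := by exact_mod_cast h
  calc ((r : ℝ) + 1) / 2 * ms M ≤ (2 * M + 1) * ms M :=
        mul_le_mul_of_nonneg_right (by linarith) h0.le
    _ = 2 * (M * ms M) + ms M := by ring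
    _ = _ := by rw [h1]; ring

theorem far_centre_aux {M r s t p q : ℕ} (hM : 0 < M) (hs : s < 4) (ht : t < 4)
    (hp : p ≤ 2 * M) (hq : q ≤ 2 * M) (hst : s ≤ t)
    (h : t * (2 * M + 1) + q ∉ near (nc M) r (s * (2 * M + 1) + p)) :
    ((r : ℝ) + 1) / 2 * ms M ≤
      sn (cellC M (s * (2 * M + 1) + p) - cellC M (t * (2 * M + 1) + q)) := by
  have hn : nc M = 4 * (2 * M + 1) := rfl
  have hj : t * (2 * M + 1) + q < nc M := by
    rw [hn]
    have : t * (2 * M + 1) ≤ 3 * (2 * M + 1) := Nat.mul_le_mul_right _ (by omega)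
    omega
  have hi : s * (2 * M + 1) + p < nc M := by
    rw [hn]
    have : s * (2 * M + 1) ≤ 3 * (2 * M + 1) := Nat.mul_le_mul_right _ (by omega)
    omega
  rw [cellC_side M s p hp, cellC_side M t q hq]
  obtain ⟨u, rfl⟩ := Nat.exists_eq_add_of_le hst
  have hu : u < 4 := by omega
  have e : (Complex.I : ℂ) ^ (s + u) = Complex.I ^ s * Complex.I ^ u := pow_add _ _ _
  rw [e, mul_assoc, ← mul_sub, sn_I_pow]
  interval_cases u
  · rw [add_zero] at h hj
    rw [pow_zero, one_mul]
    apply one_side hM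
    rcases le_total p q with hpq | hpq
    · left
      apply lt_of_not_near hj h
      left
      rw [Nat.mod_eq_of_lt] <;> omega
    · right
      apply lt_of_not_near hj h
      right
      rw [Nat.mod_eq_of_lt] <;> omega
  · rw [pow_one]
    apply two_side hM hp
    apply lt_of_not_near hj h
    left
    have h1 : (s + 1) * (2 * M + 1) = s * (2 * M + 1) + (2 * M + 1) := by ring
    rw [h1] at hj ⊢
    rw [Nat.mod_eq_of_lt] <;> omega
  · apply three_side hM
    have h1 : (s + 2) * (2 * M + 1) = s * (2 * M + 1) + 2 * (2 * M + 1) := by ring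
    rw [h1] at h hj
    have a1 : r < 2 * (2 * M + 1) - p + q := by
      apply lt_of_not_near hj h
      left
      rw [Nat.mod_eq_of_lt] <;> omega
    have a2 : r < 2 * (2 * M + 1) - q + p := by
      apply lt_of_not_near hj h
      right
      have : s * (2 * M + 1) + 2 * (2 * M + 1) + q + (2 * (2 * M + 1) - q + p) =
          s * (2 * M + 1) + p + 4 * (2 * M + 1) := by omega
      rw [this, hn, Nat.add_mod_right, Nat.mod_eq_of_lt]
      rw [hn] at hi; exact hi
    omega
  · have hs0 : s = 0 := by omega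
    subst hs0
    have h2 : sn ((⟨1 + ms M / 2, -1 + ms M / 2 + (p : ℕ) * ms M⟩ : ℂ) -
        Complex.I ^ 3 * ⟨1 + ms M / 2, -1 + ms M / 2 + (q : ℕ) * ms M⟩) =
        sn ((⟨1 + ms M / 2, -1 + ms M / 2 + (q : ℕ) * ms M⟩ : ℂ) -
        Complex.I * ⟨1 + ms M / 2, -1 + ms M / 2 + (p : ℕ) * ms M⟩) := by
      rw [← sn_I ((⟨1 + ms M / 2, -1 + ms M / 2 + (p : ℕ) * ms M⟩ : ℂ) - _), mul_sub,
        ← mul_assoc, ← pow_succ', Complex.I_pow_four, one_mul, sn_sub_comm]
    rw [h2]
    apply two_side hM hq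
    apply lt_of_not_near hj h
    right
    have : (0 + 3) * (2 * M + 1) + q + (2 * M - q + (p + 1)) =
        p + 4 * (2 * M + 1) := by omega
    rw [this, hn, Nat.add_mod_right, Nat.mod_eq_of_lt]
    · omega
    · rw [hn] at hi; omega

theorem near_comm {n r i j : ℕ} (h : j ∉ near n r i) (hj : j < n) :
    i ∉ near n r j := by
  intro h1
  apply h
  unfold near at h1 ⊢
  rw [mem_filter, mem_range] at h1 ⊢
  obtain ⟨-, t, ht, h2⟩ := h1
  exact ⟨hj, t, ht, h2.symm⟩

/-- **Centres of pieces which are not near each other.** -/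
theorem far_centre {M r i j : ℕ} (hM : 0 < M) (hi : i < nc M) (hj : j < nc M)
    (h : j ∉ near (nc M) r i) : ((r : ℝ) + 1) / 2 * ms M ≤ sn (cellC M i - cellC M j) := by
  have ei : i = i / (2 * M + 1) * (2 * M + 1) + i % (2 * M + 1) := (Nat.div_add_mod' i _).symm
  have ej : j = j / (2 * M + 1) * (2 * M + 1) + j % (2 * M + 1) := (Nat.div_add_mod' j _).symm
  have si := div_lt_four hi
  have sj := div_lt_four hj
  have pi := mod_le M i
  have pj := mod_le M j
  rcases le_total (i / (2 * M + 1)) (j / (2 * M + 1)) with hst | hst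
  · rw [ei, ej] at h
    rw [ei, ej]
    exact far_centre_aux hM si sj pi pj hst h
  · have h' := near_comm h hj
    rw [sn_sub_comm]
    rw [ei, ej] at h'
    rw [ei, ej]
    exact far_centre_aux hM sj si pj pi hst h'

theorem disjoint_win {M r i j : ℕ} {R : ℝ} (hM : 0 < M) (hR : 4 * R ≤ r + 1) (hi : i < nc M)
    (hj : j < nc M) (h : j ∉ near (nc M) r i) : Disjoint (win M R i) (win M R j) := by
  apply disjoint_csq
  refine le_trans ?_ (far_centre hM hi hj h)
  have h0 := ms_pos hM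
  nlinarith

/-! ### The corners -/

/-- The indices at distance less than `q` from the corners. -/
def Cor (M q : ℕ) : Finset ℕ :=
  (range (nc M)).filter fun k => k % (2 * M + 1) < q ∨ 2 * M ≤ k % (2 * M + 1) + q

theorem card_Cor (M q : ℕ) : (Cor M q).card ≤ 4 * (2 * q + 1) := by
  have h : Cor M q ⊆ (range 4 ×ˢ range (2 * q + 1)).image fun x =>
      x.1 * (2 * M + 1) + (if x.2 < q then x.2 else 2 * M - (x.2 - q)) := by
    intro k hk
    unfold Cor at hk
    rw [mem_filter, mem_range] at hk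
    obtain ⟨hk, h⟩ := hk
    have h1 := div_lt_four hk
    have h2 := mod_le M k
    have h3 : k / (2 * M + 1) * (2 * M + 1) + k % (2 * M + 1) = k := Nat.div_add_mod' k _
    rw [mem_image]
    by_cases hq : k % (2 * M + 1) < q
    · refine ⟨(k / (2 * M + 1), k % (2 * M + 1)), ?_, ?_⟩
      · rw [mem_product, mem_range, mem_range]
        exact ⟨h1, by show k % (2 * M + 1) < 2 * q + 1; omega⟩
      · show k / (2 * M + 1) * (2 * M + 1) + (if k % (2 * M + 1) < q then _ else _) = k
        rw [if_pos hq]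
        exact h3
    · have h4 : 2 * M ≤ k % (2 * M + 1) + q := by
        rcases h with h | h
        · exact absurd h hq
        · exact h
      refine ⟨(k / (2 * M + 1), q + (2 * M - k % (2 * M + 1))), ?_, ?_⟩
      · rw [mem_product, mem_range, mem_range]
        exact ⟨h1, by show q + (2 * M - k % (2 * M + 1)) < 2 * q + 1; omega⟩
      · show k / (2 * M + 1) * (2 * M + 1) + (if q + (2 * M - k % (2 * M + 1)) < q then
          q + (2 * M - k % (2 * M + 1)) else 2 * M - (q + (2 * M - k % (2 * M + 1)) - q)) = k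
        rw [if_neg (by omega)]
        have : 2 * M - (q + (2 * M - k % (2 * M + 1)) - q) = k % (2 * M + 1) := by omega
        rw [this]
        exact h3
  calc (Cor M q).card ≤ _ := card_le_card h
    _ ≤ _ := card_image_le
    _ = 4 * (2 * q + 1) := by rw [card_product, card_range, card_range]

/-! ### The annealed law of large numbers -/

/-- Local means: functions of the points in the windows, bounded, equivariant away from the
corners (`q` indices on each side). -/
structure Means (M q : ℕ) (R K : ℝ) (m : ℕ → Set Pt → ℂ) : Prop where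
  meas : ∀ k < nc M, @Measurable _ _ voidSigma _ (m k)
  loc : ∀ k < nc M, ∀ T, m k (res (win M R k) T) = m k T
  bd : ∀ k < nc M, ∀ T, ‖m k T‖ ^ 2 ≤ K * ms M ^ 2
  eqv : ∀ l, l % (2 * M + 1) + (2 * q + 1) ≤ 2 * M → l + q < nc M → ∀ T,
    m (l + q) (H826.mv (Complex.I ^ (l / (2 * M + 1))) (tr M l) T) =
      Complex.I ^ (l / (2 * M + 1)) * m q T

section

variable {Ω : Type*} [MeasurableSpace Ω] {P : Measure Ω} [IsProbabilityMeasure P]
  {S : Ω → Set Pt} {lam : ℝ≥0} {M q r : ℕ} {R K : ℝ} {m : ℕ → Set Pt → ℂ}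

omit [IsProbabilityMeasure P] in
theorem measurable_means (h : IsColouredPoisson P S lam) {f : Set Pt → ℂ}
    (hf : @Measurable _ _ voidSigma _ f) : Measurable fun ω => f (S ω) :=
  @Measurable.comp _ _ _ _ voidSigma _ _ _ hf h.measurable_self

theorem memLp_means (h : IsColouredPoisson P S lam) (hm : Means M q R K m) {k : ℕ}
    (hk : k < nc M) : MemLp (fun ω => m k (S ω)) 2 P := by
  refine MemLp.of_bound (measurable_means h (hm.meas k hk)).aestronglyMeasurable
    (Real.sqrt (K * ms M ^ 2)) (Filter.Eventually.of_forall fun ω => ?_)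
  exact Real.le_sqrt_of_sq_le (hm.bd k hk _)

theorem sq_means (hm : Means M q R K m) {k : ℕ} (hk : k < nc M) :
    ∫ ω, ‖m k (S ω)‖ ^ 2 ∂P ≤ K * ms M ^ 2 := by
  calc ∫ ω, ‖m k (S ω)‖ ^ 2 ∂P ≤ ∫ _, K * ms M ^ 2 ∂P := by
        refine integral_mono_of_nonneg (Filter.Eventually.of_forall fun ω => by positivity)
          (integrable_const _) (Filter.Eventually.of_forall fun ω => hm.bd k hk _)
    _ = K * ms M ^ 2 := by simp

theorem indep_means (h : IsColouredPoisson P S lam) (hm : Means M q R K m) (hM : 0 < M)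
    (hR : 4 * R ≤ r + 1) {i j : ℕ} (hi : i < nc M) (hj : j < nc M)
    (hij : j ∉ near (nc M) r i) :
    IndepFun (fun ω => m i (S ω)) (fun ω => m j (S ω)) P := by
  have h1 := indepFun_resC h (measurableSet_win M R i) (measurableSet_win M R j)
    (disjoint_win hM hR hi hj hij)
  have mi : @Measurable Conf ℂ _ _ (m i) := hm.meas i hi
  have mj : @Measurable Conf ℂ _ _ (m j) := hm.meas j hj
  exact (h1.comp mi mj).congr (Filter.Eventually.of_forall fun ω => hm.loc i hi (S ω))
    (Filter.Eventually.of_forall fun ω => hm.loc j hj (S ω))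

/-- The mean of the reference piece. -/
noncomputable def mean0 (P : Measure Ω) (S : Ω → Set Pt) (M q : ℕ) (m : ℕ → Set Pt → ℂ) : ℂ :=
  if q < nc M then ∫ ω, m q (S ω) ∂P else 0

/-- The slope: mean of the reference piece over its displacement. -/
noncomputable def slope (P : Measure Ω) (S : Ω → Set Pt) (M q : ℕ) (m : ℕ → Set Pt → ℂ) : ℂ :=
  mean0 P S M q m / (Complex.I * ms M)

theorem sq_mean0 (hm : Means M q R K m) (hK : 0 ≤ K) :
    ‖mean0 P S M q m‖ ^ 2 ≤ K * ms M ^ 2 := by
  unfold mean0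
  split_ifs with hq
  · have h1 : ‖∫ ω, m q (S ω) ∂P‖ ≤ Real.sqrt (K * ms M ^ 2) := by
      have := norm_integral_le_of_norm_le_const (μ := P)
        (Filter.Eventually.of_forall fun ω => Real.le_sqrt_of_sq_le (hm.bd q hq (S ω)))
      simpa using this
    calc ‖∫ ω, m q (S ω) ∂P‖ ^ 2 ≤ (Real.sqrt (K * ms M ^ 2)) ^ 2 :=
          pow_le_pow_left₀ (norm_nonneg _) h1 2
      _ = K * ms M ^ 2 := Real.sq_sqrt (by positivity)
  · have : 0 ≤ K * ms M ^ 2 := by positivity
    simpa using this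

theorem sq_slope (hm : Means M q R K m) (hM : 0 < M) (hK : 0 ≤ K) :
    ‖slope P S M q m‖ ^ 2 ≤ K := by
  have hms := ms_pos hM
  unfold slope
  rw [norm_div, norm_mul, Complex.norm_I, one_mul, Complex.norm_real, Real.norm_eq_abs,
    abs_of_pos hms, div_pow, div_le_iff₀ (by positivity)]
  exact sq_mean0 hm hK

/-- **Row N5, level 2.** -/
theorem annealed_lln (h : IsColouredPoisson P S lam) (hm : Means M q R K m) (hM : 0 < M)
    (hK : 0 ≤ K) (hR : 4 * R ≤ r + 1) :
    ∃ G : Ω → ℝ, (∀ ω, 0 ≤ G ω) ∧ Integrable G P ∧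
      ∫ ω, G ω ∂P ≤ err (K * (432 * (r + 1) + 72 * (4 * (2 * q + 1) : ℕ) ^ 2)) M ∧
      ∀ ω, ∀ i ≤ nc M, ∀ j ≤ nc M, ‖arcSum (nc M) (fun k => m k (S ω)) i j -
        slope P S M q m * (gateC M j - gateC M i)‖ ^ 2 ≤ G ω := by
  exact ring_lln (P := P) hM hK r (4 * (2 * q + 1))
    (v := fun k ω => m k (S ω)) (fun k hk => memLp_means h hm hk)
    (fun k hk => sq_means hm hk)
    (fun i hi j hj hij => indep_means h hm hM hR hi hj hij) (mean0 P S M q m)
    (sq_mean0 hm hK) (Cor M q) (card_Cor M q)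
    (fun k hk hk2 => by
      unfold Cor
      rw [mem_filter, mem_range]
      exact ⟨hk, Or.inr (by omega)⟩)
    (fun k hk hkc => by
      unfold Cor at hkc
      rw [mem_filter, mem_range] at hkc
      have h1 : q ≤ k % (2 * M + 1) := by
        by_contra hh
        exact hkc ⟨hk, Or.inl (by omega)⟩
      have h2 : k % (2 * M + 1) + q < 2 * M := by
        by_contra hh
        exact hkc ⟨hk, Or.inr (by omega)⟩
      have hq : q < nc M := by unfold nc; omega
      have h3 : k / (2 * M + 1) * (2 * M + 1) + k % (2 * M + 1) = k := Nat.div_add_mod' k _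
      have h4 : (k - q) = (2 * M + 1) * (k / (2 * M + 1)) + (k % (2 * M + 1) - q) := by
        rw [mul_comm (2 * M + 1)]
        omega
      have hlt : k % (2 * M + 1) - q < 2 * M + 1 := by omega
      have h5 : (k - q) % (2 * M + 1) = k % (2 * M + 1) - q := by
        rw [h4, Nat.mul_add_mod]
        exact Nat.mod_eq_of_lt hlt
      have h6 : (k - q) / (2 * M + 1) = k / (2 * M + 1) := by
        rw [h4, Nat.mul_add_div (by omega)]
        have := Nat.div_eq_of_lt hlt
        omega
      have h7 : k - q + q = k := by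
        have : q ≤ k := h1.trans (Nat.mod_le _ _)
        omega
      have h8 := hm.eqv (k - q) (by rw [h5]; omega) (by rw [h7]; exact hk)
      rw [h7, h6] at h8
      have h9 := H826.integral_mv (b := tr M (k - q)) h (a := Complex.I ^ (k / (2 * M + 1)))
        (by rw [norm_pow, Complex.norm_I, one_pow]) (hm.meas k hk)
      rw [← h9]
      simp_rw [h8]
      rw [integral_const_mul, mean0, if_pos hq])

end

/-! ### Combination with the quenched level -/

/-- The quenched data of one configuration of points: a finite probability space `(α, w)`, the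
pieces `v k`, `k < nc M`, independent if not near each other, second moments at most `K a ^ 2`,
means `μ k`. -/
structure Quen (M r : ℕ) (K : ℝ) {α : Type*} [Fintype α] (w : α → ℝ) (v : ℕ → α → ℂ)
    (μ : ℕ → ℂ) : Prop where
  w0 : ∀ a, 0 ≤ w a
  w1 : ∑ a, w a = 1
  sq : ∀ k < nc M, ∑ a, w a * ‖v k a‖ ^ 2 ≤ K * ms M ^ 2
  ind : ∀ i < nc M, ∀ j < nc M, j ∉ near (nc M) r i → ∀ φ ψ : ℂ → ℝ,
    ∑ a, w a * (φ (v i a) * ψ (v j a)) = (∑ a, w a * φ (v i a)) * ∑ a, w a * ψ (v j a)
  mean : ∀ k < nc M, fmean w (v k) = μ k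

theorem arcSum_congr {n : ℕ} {v v' : ℕ → ℂ} (h : ∀ k < n, v k = v' k) {i j : ℕ} (hi : i ≤ n)
    (hj : j ≤ n) : arcSum n v i j = arcSum n v' i j := by
  unfold arcSum
  split_ifs with hij
  · apply Finset.sum_congr rfl
    intro k hk
    rw [Finset.mem_Ico] at hk
    exact h k (by omega)
  · congr 1
    · apply Finset.sum_congr rfl
      intro k hk
      rw [Finset.mem_Ico] at hk
      exact h k (by omega)
    · apply Finset.sum_congr rfl
      intro k hk
      rw [Finset.mem_range] at hk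
      exact h k (by omega)

/-- The constant of the row. -/
noncomputable def cN5 (K : ℝ) (r q : ℕ) : ℝ :=
  2 * (K * (216 * (r + 1)) + K * (432 * (r + 1) + 72 * (4 * (2 * q + 1) : ℕ) ^ 2))

theorem cN5_nonneg {K : ℝ} (hK : 0 ≤ K) (r q : ℕ) : 0 ≤ cN5 K r q := by
  unfold cN5; positivity

theorem err_add (C C' : ℝ) (M : ℕ) : err C M + err C' M = err (C + C') M := by
  unfold err; ring

theorem err_mul (C t : ℝ) (M : ℕ) : t * err C M = err (t * C) M := by
  unfold err; ring

/-- One configuration of points: the explicit dominating function of the coins. -/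
theorem Quen.dom {M r : ℕ} (hM : 0 < M) {K : ℝ} (hK : 0 ≤ K) {α : Type*} [Fintype α] {w : α → ℝ}
    {v : ℕ → α → ℂ} {μ : ℕ → ℂ} (hQ : Quen M r K w v μ) {c : ℂ} {G : ℝ}
    (hG : ∀ i ≤ nc M, ∀ j ≤ nc M, ‖arcSum (nc M) μ i j - c * (gateC M j - gateC M i)‖ ^ 2 ≤ G) :
    ∃ D : α → ℝ, (∀ a, 0 ≤ D a) ∧
      ∑ a, w a * D a ≤ err (2 * (K * (216 * (r + 1)))) M + 2 * G ∧
      ∀ a, ∀ i ≤ nc M, ∀ j ≤ nc M,
        ‖arcSum (nc M) (fun k => v k a) i j - c * (gateC M j - gateC M i)‖ ^ 2 ≤ D a := by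
  have hG0 : 0 ≤ G := (sq_nonneg _).trans (hG 0 (Nat.zero_le _) 0 (Nat.zero_le _))
  refine ⟨fun a => 2 * fdom w (nc M) (Nat.log 2 (12 * M) + 1) v a + 2 * G, fun a => ?_, ?_, ?_⟩
  · have := fdom_nonneg w (nc M) (Nat.log 2 (12 * M) + 1) v a
    show 0 ≤ 2 * fdom w (nc M) (Nat.log 2 (12 * M) + 1) v a + 2 * G
    positivity
  · have h1 := ring_fin hM hQ.w0 hQ.w1 hK r hQ.sq hQ.ind
    have h2 : ∑ a, w a * (2 * fdom w (nc M) (Nat.log 2 (12 * M) + 1) v a + 2 * G) =
        2 * (∑ a, w a * fdom w (nc M) (Nat.log 2 (12 * M) + 1) v a) + 2 * G * ∑ a, w a := by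
      rw [Finset.mul_sum, Finset.mul_sum, ← Finset.sum_add_distrib]
      apply Finset.sum_congr rfl
      intro a _
      ring
    rw [h2, hQ.w1, mul_one, ← err_mul]
    linarith
  · intro a i hi j hj
    refine two_level (nc_lt_pow hM) v (fun i hi j hj => ?_) a hi hj
    rw [arcSum_congr (v' := μ) (fun k hk => hQ.mean k hk) hi hj]
    exact hG i hi j hj

section

variable {Ω : Type*} [MeasurableSpace Ω] {P : Measure Ω} [IsProbabilityMeasure P]
  {S : Ω → Set Pt} {lam : ℝ≥0} {M q r : ℕ} {R K : ℝ} {m : ℕ → Set Pt → ℂ}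

/-- **Row N5.** `g` dominates the quenched mean of `max ‖v_i + ⋯ + v_(j-1) - c (g_j - g_i)‖ ^ 2`,
where `c` is the slope; the bound does not depend on the intensity. -/
theorem lln_ring (h : IsColouredPoisson P S lam) (hm : Means M q R K m) (hM : 0 < M)
    (hK : 0 ≤ K) (hR : 4 * R ≤ r + 1) :
    ∃ g : Ω → ℝ, (∀ ω, 0 ≤ g ω) ∧ Integrable g P ∧ ∫ ω, g ω ∂P ≤ err (cN5 K r q) M ∧
      ∀ ω, ∀ {α : Type} [Fintype α] (w : α → ℝ) (v : ℕ → α → ℂ),
        Quen M r K w v (fun k => m k (S ω)) →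
        ∃ D : α → ℝ, (∀ a, 0 ≤ D a) ∧ ∑ a, w a * D a ≤ g ω ∧
          ∀ a, ∀ i ≤ nc M, ∀ j ≤ nc M,
            ‖arcSum (nc M) (fun k => v k a) i j -
              slope P S M q m * (gateC M j - gateC M i)‖ ^ 2 ≤ D a := by
  obtain ⟨G, g0, g1, g2, g3⟩ := annealed_lln h hm hM hK hR
  have herr : 0 ≤ err (2 * (K * (216 * (r + 1)))) M := by
    unfold err
    have := (ms_pos hM).le
    positivity
  refine ⟨fun ω => err (2 * (K * (216 * (r + 1)))) M + 2 * G ω, fun ω => ?_,
    (integrable_const _).add (g1.const_mul 2), ?_, fun ω α _ w v hQ => ?_⟩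
  · have := g0 ω
    show 0 ≤ err (2 * (K * (216 * (r + 1)))) M + 2 * G ω
    positivity
  · rw [integral_add (integrable_const _) (g1.const_mul 2), integral_const_mul]
    simp only [integral_const, probReal_univ, one_smul]
    have h2 : err (cN5 K r q) M = err (2 * (K * (216 * (r + 1)))) M +
        2 * err (K * (432 * (r + 1) + 72 * (4 * (2 * q + 1) : ℕ) ^ 2)) M := by
      rw [err_mul, err_add]
      unfold cN5
      congr 1
      ring
    rw [h2]
    linarith
  · exact hQ.dom hM hK (fun i hi j hj => g3 ω i hi j hj)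

/-- The same for lower integrals: `α`, `w`, `v` given as functions of the configuration, `A` the
set of the configurations which have quenched data. -/
theorem lln_ring' (h : IsColouredPoisson P S lam) (hm : Means M q R K m) (hM : 0 < M)
    (hK : 0 ≤ K) (hR : 4 * R ≤ r + 1) {α : Ω → Type} [∀ ω, Fintype (α ω)] (w : ∀ ω, α ω → ℝ)
    (v : ∀ ω, ℕ → α ω → ℂ) (A : Set Ω)
    (hA : ∀ ω ∈ A, Quen M r K (w ω) (v ω) (fun k => m k (S ω))) :
    ∃ D : ∀ ω, α ω → ℝ, (∀ ω a, 0 ≤ D ω a) ∧
      (∫⁻ ω, A.indicator (fun ω => ENNReal.ofReal (∑ a, w ω a * D ω a)) ω ∂P ≤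
        ENNReal.ofReal (err (cN5 K r q) M)) ∧
      ∀ ω ∈ A, ∀ a, ∀ i ≤ nc M, ∀ j ≤ nc M, ‖arcSum (nc M) (fun k => v ω k a) i j -
        slope P S M q m * (gateC M j - gateC M i)‖ ^ 2 ≤ D ω a := by
  classical
  obtain ⟨g, g0, g1, g2, g3⟩ := lln_ring h hm hM hK hR
  have hch : ∀ ω, ∃ D : _ → ℝ, (∀ a, 0 ≤ D a) ∧ (ω ∈ A → ∑ a, w ω a * D a ≤ g ω ∧
      ∀ a, ∀ i ≤ nc M, ∀ j ≤ nc M,
        ‖arcSum (nc M) (fun k => v ω k a) i j -
          slope P S M q m * (gateC M j - gateC M i)‖ ^ 2 ≤ D a) := by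
    intro ω
    by_cases hω : ω ∈ A
    · obtain ⟨D, h1, h2, h3⟩ := g3 ω (w ω) (v ω) (hA ω hω)
      exact ⟨D, h1, fun _ => ⟨h2, h3⟩⟩
    · exact ⟨fun _ => 0, fun _ => le_rfl, fun hh => absurd hh hω⟩
  choose D hD using hch
  refine ⟨D, fun ω => (hD ω).1, ?_, fun ω hω => ((hD ω).2 hω).2⟩
  calc ∫⁻ ω, A.indicator (fun ω => ENNReal.ofReal (∑ a, w ω a * D ω a)) ω ∂P ≤
      ∫⁻ ω, ENNReal.ofReal (g ω) ∂P := by
        apply lintegral_mono
        intro ω
        by_cases hω : ω ∈ A
        · show A.indicator _ ω ≤ _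
          rw [Set.indicator_of_mem hω]
          exact ENNReal.ofReal_le_ofReal ((hD ω).2 hω).1
        · show A.indicator _ ω ≤ _
          rw [Set.indicator_of_notMem hω]
          exact zero_le
    _ = ENNReal.ofReal (∫ ω, g ω ∂P) :=
        (ofReal_integral_eq_lintegral_ofReal g1 (Filter.Eventually.of_forall g0)).symm
    _ ≤ _ := ENNReal.ofReal_le_ofReal g2

end

end Vale.Agent.P148.R2.H598
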