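import Vale.Agent.P148.R2.H598.Lln6
import Vale.Agent.P148.R2.H826.MeansEq
import Vale.Agent.P148.R2.H488.N4i

/-!
# Row N5: instance for the comb

`llnData_comb` : `LlnData` for all scenes whose indices are the pairs of colourings of the sites of
the world `site T R`, with the weights of the law of the comb and the values of the cells.
-/

namespace Vale.Agent.P148.R2.H598

open MeasureTheory ProbabilityTheory Filter Topology N Set Metric
open _root_.P148 _root_.P148.H729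
open Vale.Agent.P148.R2.H504 (cF gw)
open Vale.Agent.P148.R2.H172 (combLaw)
open Vale.Agent.P148.R2.H291 (site SiteOK)
open Vale.Agent.P148.R2.H566 (Ev Scene)
open Vale.Agent.P148.R2.H184 (Dt Wt)
open Vale.Agent.P148.R2.H826 (Turn)
open Vale.Agent.P148.R2.H488 (cw KC)
open Vale.Agent.P148.R2.H953 (pr)
open scoped ENNReal NNReal

universe u v

open scoped Classical in
theorem quen_site' {V : Type v} [Fintype V] {e : V → ℂ} {T : Set Pt} {R s : ℝ} {M : ℕ}
    {Y : Set ℂ} (hY : Y = range e) (hM0 : 0 < M) (hM : 5 ≤ M) (he : Function.Injective e)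
    (h : SiteOK T R s) (hR : 7 ≤ R)
    (hs : 10 * s < ms M) (hr : range e = site T R) {c : ℝ} (hc : 0 < c)
    (hH : ∀ l < nc M, c ≤ pr ((combLaw hM0 Y e).He l))
    (hC : ∀ l < nc M, c ≤ pr ((combLaw hM0 Y e).Ce l)) {Θ : Dt → ℂ} {K : ℝ}
    (hK : ∀ k < nc M, ((combLaw hM0 Y e).qe fun c₁ c₂ =>
      ‖cF M e (fun k => cw (H488.hc M k) Θ) k ((combLaw hM0 Y e).w c₁ c₂)‖ ^ 2) ≤ K * ms M ^ 2) :
    Quen M 31 K (gw (combLaw hM0 Y e))
      (fun k p => cF M e (fun k => cw (H488.hc M k) Θ) k ((combLaw hM0 Y e).w p.1 p.2))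
      (fun k => mT M Θ K 8 k T) := by
  subst hY
  exact quen_site hM he h hR hs hr hc hH hC hK

theorem KC_nonneg {c κ : ℝ} (hc : 0 < c) : 0 ≤ KC c κ := by
  have := H291.CD_nonneg 2 3
  unfold KC
  positivity

open scoped Classical in
/-- **N5 for the comb.** -/
theorem llnData_comb : ∃ c > 0, ∀ (τ : ℂ) (κ : ℝ) (Θ : Dt → ℂ), Wt τ κ Θ → Turn Θ →
    ∀ (s : ℕ → Set Pt → Scene) (v : ∀ M T, (s M T).ι → ℕ → ℂ) (R : ℝ), 7 ≤ R →
    ∀ (M : ℕ) (hM0 : 0 < M), 5 ≤ M →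
    (Ev.{u} fun T => ∃ (V : Type) (_ : Fintype V) (e : V → ℂ)
      (φ : (s M T).ι ≃ (V → Bool) × (V → Bool)), Function.Injective e ∧ range e = site T R ∧
      (∀ i, (s M T).p i = ENNReal.ofReal (gw (combLaw hM0 (site T R) e) (φ i))) ∧
      ∀ i k, v M T i k = cF M e (fun k => cw (H488.hc M k) Θ) k
        ((combLaw hM0 (site T R) e).w (φ i).1 (φ i).2)) →
    LlnData.{u} s v 10 (fun M k => mT M Θ (KC c κ) 8 k) (cN5 (KC c κ) 31 10) M := by
  obtain ⟨c, hc, h⟩ := H488.comb_sq_ev.{u, 0}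
  refine ⟨c, hc, fun τ κ Θ hΘ hT s v R hR M hM0 hM hsc => ?_⟩
  have h0 := ms_pos hM0
  have hK := KC_nonneg (κ := κ) hc
  have hs : Ev.{u} fun T => SiteOK T R (ms M / 16) :=
    H291.ev_siteOK (by linarith) (by positivity) (by linarith [N.ms_le_one (M := M)])
  have hm := H826.means hM0 hT hΘ.meas hK 8
  refine LlnData.of_quen (M := M) (R := 8) (r := 31) hM0 hK (by norm_num) hm
    (G := fun T => (SiteOK T R (ms M / 16) ∧ _) ∧ _)
    ((hs.and (h τ κ Θ hΘ M hM0 (by omega) R hR)).and hsc)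
    (fun T i => ((s M T).p i).toReal) (fun T hT i => ?_) fun T hT => ?_
  · obtain ⟨-, V, _, e, φ, -, -, h1, -⟩ := hT
    rw [h1, ENNReal.toReal_ofReal (H504.gw_nonneg _ _)]
  · obtain ⟨⟨h1, h2⟩, V, _, e, φ, he, hr, h3, h4⟩ := hT
    obtain ⟨h5, h6, h7⟩ := h2 V e he hr
    refine (quen_site' hr.symm hM0 hM he h1 hR (by linarith) hr hc h5 h6 h7).equiv φ
      (fun i => ?_) fun k i => h4 i k
    rw [h3, ENNReal.toReal_ofReal (H504.gw_nonneg _ _)]

end Vale.Agent.P148.R2.H598
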