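import Vale.Agent.P148.R2.H172.Asm
import Vale.Agent.P148.R2.H598.Lln7
import Vale.Agent.P148.R2.F.CalEnd2

/-!
# Row lln for the scene of the comb

`llnData_sc` : `LlnData` for `H172.fsc` with the values of the cells `FScene.cv`.
`row_lln` : the row (lln) from the calibration (the slope tends to zero).
-/

namespace Vale.Agent.P148.R2.H598

open MeasureTheory ProbabilityTheory Filter Topology N Set Metric
open _root_.P148 _root_.P148.H729
open Vale.Agent.P148.R2.H172 (fsc sc fscOf fsc_eq gX fX RowLln)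
open Vale.Agent.P148.R2.H291 (site SiteOK)
open Vale.Agent.P148.R2.H566 (Ev Scene)
open Vale.Agent.P148.R2.H184 (Dt Wt)
open Vale.Agent.P148.R2.H826 (Turn)
open Vale.Agent.P148.R2.H488 (cw KC)
open scoped ENNReal NNReal

universe u

/-- **N5 for the scene of the comb.** -/
theorem llnData_sc : ∃ c > 0, ∀ (τ : ℂ) (κ : ℝ) (Θ : Dt → ℂ), Wt τ κ Θ → Turn Θ →
    ∀ᶠ M in atTop, LlnData.{u} (fun M T => (fsc M T).toScene) (fun M T i k => (fsc M T).cv Θ i k)
      10 (fun M k => mT M Θ (KC c κ) 8 k) (cN5 (KC c κ) 31 10) M := by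
  obtain ⟨c, hc, h⟩ := llnData_comb.{u}
  refine ⟨c, hc, fun τ κ Θ hΘ hT => ?_⟩
  filter_upwards [eventually_ge_atTop 5] with M hM
  have hM0 : 0 < M := by omega
  have h0 := ms_pos hM0
  refine h τ κ Θ hΘ hT (fun M T => (fsc M T).toScene) (fun M T i k => (fsc M T).cv Θ i k) 9
    (by norm_num) M hM0 hM ?_
  have hs : Ev.{u} fun T => SiteOK T 9 (ms M / 1000) :=
    H291.ev_siteOK (by norm_num) (by positivity) (by linarith [N.ms_le_one (M := M)])
  refine hs.mono fun T h => ?_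
  rw [fsc_eq hM0 h]
  let := fX h.hull
  refine ⟨site T 9, fX h.hull, Subtype.val, Equiv.refl _, Subtype.val_injective,
    Subtype.range_coe, fun i => ?_, fun i k => ?_⟩
  · exact H172.fscOf_p hM0 h.hull i
  · rfl

/-- **Row (lln)** from the calibration. -/
theorem row_lln {Θ : Dt → ℂ} {C K : ℝ} (hC : 0 ≤ C)
    (hN5 : ∀ᶠ M in atTop, LlnData.{u} (fun M T => (fsc M T).toScene)
      (fun M T i k => (fsc M T).cv Θ i k) 10 (fun M k => mT M Θ K 8 k) C M)
    (hcal : ∀ ε : ℝ, 0 < ε → ∀ᶠ M in atTop, ∃ K' : ℝ, ∀ (Ω : Type u) [MeasurableSpace Ω]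
      (P : Measure Ω) [IsProbabilityMeasure P] (S : Ω → Set Pt) (lam : ℝ≥0),
      IsColouredPoisson P S lam → K' ≤ lam → ‖slope P S M 10 (fun k => mT M Θ K 8 k)‖ ≤ ε) :
    RowLln.{u} Θ := fun _ _ hε =>
  lln_row (s := fun M T => (fsc M T).toScene) (v := fun M T i k => (fsc M T).cv Θ i k) hC hN5
    hcal hε

/-- **Row (lln)** from the calibration inequality in the worlds of the scene. -/
theorem row_lln_of_world {τ : ℂ} {κ₀ : ℝ} {Θ : Dt → ℂ} (hΘ : Wt τ κ₀ Θ) (hT : Turn Θ)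
    {κ C₁ : ℝ} (hκ : 0 < κ) (hC₁ : 0 ≤ C₁)
    (hW : ∀ ε : ℝ, 0 < ε → ∀ᶠ M in atTop, F.CalWorld.{u} (fun M T => (fsc M T).toScene)
      (fun M T i k => (fsc M T).cv Θ i k) κ C₁ ε M) : RowLln.{u} Θ := by
  obtain ⟨c, hc, h⟩ := llnData_sc.{u}
  have h1 := h τ κ₀ Θ hΘ hT
  have h2 : 0 ≤ cN5 (KC c κ₀) 31 10 := cN5_nonneg (KC_nonneg hc) 31 10
  exact row_lln h2 h1 (F.hcal_of_world h2 h1 hκ hC₁ hW)

end Vale.Agent.P148.R2.H598
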