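import Vale.Agent.P148.R2.H144.T3b
import Vale.Agent.P148.R2.H953.Tool2

/-!
# Dictionary (P148, rows OMEGA / WLD)

Coloured configurations as pairs (set of sites, colours); quenched averages `H729.avg` as the means
`H953.ex` over the colourings of the sites in the window.
-/

open MeasureTheory Set Metric Topology Filter ProbabilityTheory
open scoped ENNReal NNReal

namespace Vale.Agent.P148.R2.H598

open H592 H184 H144 H953 _root_.P148.H729
open _root_.P148 hiding col

/-- The coloured set with the sites `η` and the colours `c`. -/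
def mkT (η : Set ℂ) (c : ℂ → Bool) : Set Pt := {q | q.1 ∈ η ∧ q.2 = c q.1}

theorem mem_mkT {η : Set ℂ} {c : ℂ → Bool} {q : Pt} : q ∈ mkT η c ↔ q.1 ∈ η ∧ q.2 = c q.1 := Iff.rfl

theorem pts_mkT (η : Set ℂ) (c : ℂ → Bool) : pts (mkT η c) = η := by
  ext z
  constructor
  · rintro ⟨q, hq, rfl⟩
    exact hq.1
  · intro hz
    exact ⟨(z, c z), ⟨hz, rfl⟩, rfl⟩

theorem col_mkT {η : Set ℂ} {c : ℂ → Bool} {x : ℂ} (hx : x ∈ η) : col (mkT η c) x = c x := by
  classical
  unfold col
  rw [Bool.eq_iff_iff, decide_eq_true_eq]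
  constructor
  · intro h
    exact h.2.symm
  · intro h
    exact ⟨hx, h.symm⟩

theorem col_of_notMem {T : Set Pt} {x : ℂ} (hx : x ∉ pts T) : col T x = false := by
  classical
  unfold col
  rw [decide_eq_false_iff_not]
  exact fun h => hx ⟨_, h, rfl⟩

theorem oneCol_mkT (η : Set ℂ) (c : ℂ → Bool) : OneCol (mkT η c) := by
  rintro z ⟨h1, h2⟩
  have e1 : true = c z := h1.2
  have e2 : false = c z := h2.2
  rw [← e1] at e2
  exact Bool.noConfusion e2

theorem col_snd {T : Set Pt} (hT : OneCol T) {q : Pt} (hq : q ∈ T) : col T q.1 = q.2 := by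
  classical
  unfold col
  rcases h : q.2 with _ | _
  · rw [decide_eq_false_iff_not]
    intro h1
    exact hT q.1 ⟨h1, by rw [← h]; exact hq⟩
  · rw [decide_eq_true_eq, ← h]
    exact hq

/-- A configuration with one colour per site is given by its sites and its colours. -/
theorem mkT_self {T : Set Pt} (hT : OneCol T) : mkT (pts T) (col T) = T := by
  ext q
  constructor
  · rintro ⟨⟨p, hp, hpq⟩, h2⟩
    have : p = q := by
      refine Prod.ext hpq ?_
      rw [h2, ← hpq, col_snd hT hp]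
    rw [← this]; exact hp
  · intro hq
    exact ⟨⟨q, hq, rfl⟩, (col_snd hT hq).symm⟩

theorem mkT_congr {η : Set ℂ} {c c' : ℂ → Bool} (h : ∀ x ∈ η, c x = c' x) :
    mkT η c = mkT η c' := by
  ext q
  rw [mem_mkT, mem_mkT]
  exact and_congr_right fun hq => by rw [h _ hq]

open Classical in
/-- The colours `c` on the sites in `N`, the colours `c₀` on the others. -/
noncomputable def ext (N : Set ℂ) (c : N → Bool) (c₀ : ℂ → Bool) (x : ℂ) : Bool :=
  if h : x ∈ N then c ⟨x, h⟩ else c₀ x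

section
variable {N : Set ℂ} {c : N → Bool} {c₀ : ℂ → Bool} {x : ℂ}

theorem ext_mem (h : x ∈ N) : ext N c c₀ x = c ⟨x, h⟩ := by
  unfold ext; rw [dif_pos h]

theorem ext_notMem (h : x ∉ N) : ext N c c₀ x = c₀ x := by
  unfold ext; rw [dif_neg h]

@[simp] theorem ext_coe (v : N) : ext N c c₀ v = c v := ext_mem v.2

theorem ext_self (c₀ : ℂ → Bool) : ext N (fun v => c₀ v) c₀ = c₀ := by
  funext x
  by_cases h : x ∈ N
  · rw [ext_mem h]
  · rw [ext_notMem h]

end

variable {T : Set Pt} {W : Set ℂ}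

/-- The colours of a recoloured configuration. -/
theorem col_mkT_ext (c : ↥(pts T ∩ W) → Bool) :
    col (mkT (pts T) (ext (pts T ∩ W) c (col T))) = ext (pts T ∩ W) c (col T) := by
  funext x
  by_cases hx : x ∈ pts T
  · exact col_mkT hx
  · rw [col_of_notMem (by rw [pts_mkT]; exact hx), ext_notMem (fun h => hx h.1),
      col_of_notMem hx]

theorem range_val : range (Subtype.val : ↥(pts T ∩ W) → ℂ) = pts T ∩ W := Subtype.range_coe

theorem paint_eq_mkT (hT : OneCol T) (c : ↥(pts T ∩ W) → Bool) :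
    paint T W Subtype.val c = mkT (pts T) (ext (pts T ∩ W) c (col T)) := by
  ext q
  rw [mem_mkT]
  by_cases hq : q.1 ∈ W
  · rw [mem_paint_of_mem c hq]
    constructor
    · rintro ⟨i, h1, h2⟩
      have hi : q.1 ∈ pts T ∩ W := h1 ▸ i.2
      refine ⟨hi.1, ?_⟩
      rw [ext_mem hi, ← h2]
      congr 1
      exact Subtype.ext h1
    · rintro ⟨h1, h2⟩
      refine ⟨⟨q.1, h1, hq⟩, rfl, ?_⟩
      rw [h2, ext_mem (show q.1 ∈ pts T ∩ W from ⟨h1, hq⟩)]
  · rw [mem_paint_of_notMem c range_val hq, ext_notMem (fun h => hq h.2)]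
    constructor
    · intro h
      exact ⟨⟨q, h, rfl⟩, (col_snd hT h).symm⟩
    · rintro ⟨h1, h2⟩
      rw [← mkT_self hT]
      exact ⟨h1, h2⟩

open Classical in
/-- **The quenched average as a sum over the colourings of the sites in the window.** -/
theorem avg_eq_mkT (hT : OneCol T) [Fintype ↥(pts T ∩ W)] (F : Set Pt → ℝ≥0∞) :
    avg W F T = (2 ^ Fintype.card ↥(pts T ∩ W))⁻¹ *
      ∑ c : ↥(pts T ∩ W) → Bool, F (mkT (pts T) (ext (pts T ∩ W) c (col T))) := by
  rw [avg_eq_sum Subtype.val_injective range_val hT F]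
  congr 1
  exact Finset.sum_congr rfl fun c _ => by rw [paint_eq_mkT hT c]

theorem sum_inst {α M : Type*} [AddCommMonoid M] (i j : Fintype α) (f : α → M) :
    (@Finset.sum α M _ (@Finset.univ α i) f) = @Finset.sum α M _ (@Finset.univ α j) f := by
  rw [Subsingleton.elim i j]

/-- Real valued form. -/
theorem avg_ofReal (hT : OneCol T) [Fintype ↥(pts T ∩ W)] {F : Set Pt → ℝ≥0∞}
    {f : (↥(pts T ∩ W) → Bool) → ℝ} (h0 : ∀ c, 0 ≤ f c)
    (hF : ∀ c, F (mkT (pts T) (ext (pts T ∩ W) c (col T))) = ENNReal.ofReal (f c)) :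
    avg W F T = ENNReal.ofReal (ex f) := by
  classical
  rw [avg_eq_mkT hT]
  simp_rw [hF]
  unfold ex
  rw [ENNReal.ofReal_div_of_pos (by positivity), ENNReal.div_eq_inv_mul,
    ENNReal.ofReal_sum_of_nonneg (fun c _ => h0 c), ENNReal.ofReal_pow (by norm_num),
    ENNReal.ofReal_ofNat]
  refine congrArg (HMul.hMul _) ?_
  exact sum_inst _ _ _

/-- Upper bound form. -/
theorem avg_le_ofReal (hT : OneCol T) [Fintype ↥(pts T ∩ W)] {F : Set Pt → ℝ≥0∞}
    {f : (↥(pts T ∩ W) → Bool) → ℝ} (h0 : ∀ c, 0 ≤ f c)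
    (hF : ∀ c, F (mkT (pts T) (ext (pts T ∩ W) c (col T))) ≤ ENNReal.ofReal (f c)) :
    avg W F T ≤ ENNReal.ofReal (ex f) := by
  classical
  rw [avg_eq_mkT hT]
  unfold ex
  rw [ENNReal.ofReal_div_of_pos (by positivity), ENNReal.div_eq_inv_mul,
    ENNReal.ofReal_sum_of_nonneg (fun c _ => h0 c), ENNReal.ofReal_pow (by norm_num),
    ENNReal.ofReal_ofNat]
  refine (mul_le_mul_right (Finset.sum_le_sum fun c _ => hF c) _).trans (le_of_eq ?_)
  refine congrArg (HMul.hMul _) ?_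
  exact sum_inst _ _ _

/-- Lower bound form. -/
theorem ofReal_le_avg (hT : OneCol T) [Fintype ↥(pts T ∩ W)] {F : Set Pt → ℝ≥0∞}
    {f : (↥(pts T ∩ W) → Bool) → ℝ} (h0 : ∀ c, 0 ≤ f c)
    (hF : ∀ c, ENNReal.ofReal (f c) ≤ F (mkT (pts T) (ext (pts T ∩ W) c (col T)))) :
    ENNReal.ofReal (ex f) ≤ avg W F T := by
  classical
  rw [avg_eq_mkT hT]
  unfold ex
  rw [ENNReal.ofReal_div_of_pos (by positivity), ENNReal.div_eq_inv_mul,
    ENNReal.ofReal_sum_of_nonneg (fun c _ => h0 c), ENNReal.ofReal_pow (by norm_num),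
    ENNReal.ofReal_ofNat]
  refine (le_of_eq ?_).trans (mul_le_mul_right (Finset.sum_le_sum fun c _ => hF c) _)
  refine congrArg (HMul.hMul _) ?_
  exact sum_inst _ _ _

/-- A recolouring of a configuration in the window is one of the configurations above. -/
theorem flipOn_eq_mkT (hT : OneCol T) {U : Set ℂ} (hU : U ⊆ pts T ∩ W) :
    ∃ c : ↥(pts T ∩ W) → Bool,
      flipOn U '' T = mkT (pts T) (ext (pts T ∩ W) c (col T)) := by
  classical
  refine ⟨fun v => if (v : ℂ) ∈ U then !(col T v) else col T v, ?_⟩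
  ext q
  rw [mem_mkT]
  constructor
  · rintro ⟨p, hp, rfl⟩
    refine ⟨⟨p, hp, rfl⟩, ?_⟩
    show (if p.1 ∈ U then !p.2 else p.2) = ext _ _ _ p.1
    by_cases h : p.1 ∈ pts T ∩ W
    · rw [ext_mem h, col_snd hT hp]
    · rw [ext_notMem h, if_neg (fun h1 => h (hU h1)), col_snd hT hp]
  · rintro ⟨⟨p, hp, hpq⟩, h2⟩
    refine ⟨p, hp, Prod.ext hpq ?_⟩
    show (if p.1 ∈ U then !p.2 else p.2) = q.2
    rw [h2, ← hpq]
    by_cases h : p.1 ∈ pts T ∩ W
    · rw [ext_mem h, col_snd hT hp]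
    · rw [ext_notMem h, if_neg (fun h1 => h (hU h1)), col_snd hT hp]

/-- Colours after a flip. -/
theorem col_flipOn (hT : OneCol T) (U : Set ℂ) {x : ℂ} (hx : x ∈ pts T) :
    col (flipOn U '' T) x = (open Classical in if x ∈ U then !(col T x) else col T x) := by
  classical
  obtain ⟨p, hp, rfl⟩ := hx
  have h1 : flipOn U p ∈ flipOn U '' T := ⟨p, hp, rfl⟩
  have hO : OneCol (flipOn U '' T) := by
    rintro z ⟨⟨p, hp, hp'⟩, ⟨q, hq, hq'⟩⟩
    have hp1 : p.1 = z := congrArg Prod.fst hp'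
    have hq1 : q.1 = z := congrArg Prod.fst hq'
    have hp2 : (if p.1 ∈ U then !p.2 else p.2) = true := congrArg Prod.snd hp'
    have hq2 : (if q.1 ∈ U then !q.2 else q.2) = false := congrArg Prod.snd hq'
    have e : p.2 = q.2 := hT.eq (z := z) (by rw [← hp1]; exact hp) (by rw [← hq1]; exact hq)
    rw [hp1, e] at hp2
    rw [hq1] at hq2
    rw [hp2] at hq2
    simp at hq2
  have h2 := col_snd hO h1
  rw [show (flipOn U p).1 = p.1 from rfl] at h2
  rw [h2, col_snd hT hp]
  rfl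

end Vale.Agent.P148.R2.H598
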