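import Vale.Agent.P148.R2.H598.Lln3
import Vale.Agent.P148.R2.H566.UB

/-!
# Row N5 in the form of the middle assembly

`dv M c v` : the largest square of `v_i + ⋯ + v_(j-1) - c (g_j - g_i)` over the cyclic intervals.
`lln_UB` : the quenched mean of `dv` on the good set of configurations has a measurable majorant of
mean at most `err C M`.
-/

namespace Vale.Agent.P148.R2.H598

open MeasureTheory ProbabilityTheory Filter Topology N Vale.Agent.P148.R2.H504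
open _root_.P148 _root_.P148.H729
open H953 (ex pr On)
open H172 (GateLaw ex2)
open Vale.Agent.P148.R2.H566 (UB)
open scoped ComplexConjugate ENNReal NNReal

/-- The largest square of a partial sum of `v` minus `c` times the displacement. -/
noncomputable def dv (M : ℕ) (c : ℂ) (v : ℕ → ℂ) : ℝ≥0∞ :=
  ⨆ (i : ℕ) (_ : i ≤ nc M) (j : ℕ) (_ : j ≤ nc M),
    ENNReal.ofReal (‖arcSum (nc M) v i j - c * (gateC M j - gateC M i)‖ ^ 2)

theorem le_dv {M : ℕ} (c : ℂ) (v : ℕ → ℂ) {i j : ℕ} (hi : i ≤ nc M) (hj : j ≤ nc M) :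
    ENNReal.ofReal (‖arcSum (nc M) v i j - c * (gateC M j - gateC M i)‖ ^ 2) ≤ dv M c v := by
  unfold dv
  exact le_iSup₂_of_le i hi (le_iSup₂_of_le j hj le_rfl)

theorem dv_le {M : ℕ} {c : ℂ} {v : ℕ → ℂ} {D : ℝ}
    (h : ∀ i ≤ nc M, ∀ j ≤ nc M, ‖arcSum (nc M) v i j - c * (gateC M j - gateC M i)‖ ^ 2 ≤ D) :
    dv M c v ≤ ENNReal.ofReal D := by
  unfold dv
  exact iSup₂_le fun i hi => iSup₂_le fun j hj => ENNReal.ofReal_le_ofReal (h i hi j hj)

/-- A partial sum is at most `2 |c|^2 |g_j - g_i|^2 + 2 dv`. -/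
theorem arcSum_sq_le {M : ℕ} (c : ℂ) (v : ℕ → ℂ) {i j : ℕ} (hi : i ≤ nc M) (hj : j ≤ nc M) :
    ENNReal.ofReal (‖arcSum (nc M) v i j‖ ^ 2) ≤
      2 * ENNReal.ofReal (‖c‖ ^ 2 * ‖gateC M j - gateC M i‖ ^ 2) + 2 * dv M c v := by
  have h1 : ‖arcSum (nc M) v i j‖ ^ 2 ≤ 2 * (‖c‖ ^ 2 * ‖gateC M j - gateC M i‖ ^ 2) +
      2 * ‖arcSum (nc M) v i j - c * (gateC M j - gateC M i)‖ ^ 2 := by
    have h2 : ‖arcSum (nc M) v i j‖ ≤ ‖arcSum (nc M) v i j - c * (gateC M j - gateC M i)‖ +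
        ‖c * (gateC M j - gateC M i)‖ := by
      have := norm_add_le (arcSum (nc M) v i j - c * (gateC M j - gateC M i))
        (c * (gateC M j - gateC M i))
      rwa [sub_add_cancel] at this
    have h3 : ‖c * (gateC M j - gateC M i)‖ = ‖c‖ * ‖gateC M j - gateC M i‖ := norm_mul _ _
    rw [h3] at h2
    have h4 := norm_nonneg (arcSum (nc M) v i j)
    have h5 := norm_nonneg (arcSum (nc M) v i j - c * (gateC M j - gateC M i))
    have h6 : 0 ≤ ‖c‖ * ‖gateC M j - gateC M i‖ := by positivity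
    nlinarith [sq_nonneg (‖arcSum (nc M) v i j - c * (gateC M j - gateC M i)‖ -
      ‖c‖ * ‖gateC M j - gateC M i‖)]
  have e2 : (2 : ℝ≥0∞) = ENNReal.ofReal 2 := by norm_num
  calc ENNReal.ofReal (‖arcSum (nc M) v i j‖ ^ 2)
      ≤ ENNReal.ofReal (2 * (‖c‖ ^ 2 * ‖gateC M j - gateC M i‖ ^ 2) +
      2 * ‖arcSum (nc M) v i j - c * (gateC M j - gateC M i)‖ ^ 2) :=
        ENNReal.ofReal_le_ofReal h1
    _ = 2 * ENNReal.ofReal (‖c‖ ^ 2 * ‖gateC M j - gateC M i‖ ^ 2) +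
      2 * ENNReal.ofReal (‖arcSum (nc M) v i j - c * (gateC M j - gateC M i)‖ ^ 2) := by
        rw [ENNReal.ofReal_add (by positivity) (by positivity),
          ENNReal.ofReal_mul (p := 2) (by norm_num),
          ENNReal.ofReal_mul (p := 2) (by norm_num), ← e2]
    _ ≤ _ := by gcongr; exact le_dv c v hi hj

theorem norm_gateC_le {M : ℕ} (hM : 0 < M) (k : ℕ) : ‖gateC M k‖ ≤ 3 := by
  unfold gateC
  rw [norm_mul, norm_pow, Complex.norm_I, one_pow, one_mul]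
  refine (Complex.norm_le_abs_re_add_abs_im _).trans ?_
  have h1 := ms_le_one (M := M)
  have h2 := ms_pos hM
  have h3 := mod_mul_le hM k
  have h4 : (0 : ℝ) ≤ ((k % (2 * M + 1) : ℕ) : ℝ) * ms M := by positivity
  have h5 : |(1 : ℝ) + ms M / 2| ≤ 3 / 2 := by
    rw [abs_of_pos (by positivity)]; linarith
  have h6 : |(-1 : ℝ) + ((k % (2 * M + 1) : ℕ) : ℝ) * ms M| ≤ 1 := by
    rw [abs_le]; constructor <;> linarith
  show |(1 : ℝ) + ms M / 2| + |(-1 : ℝ) + ((k % (2 * M + 1) : ℕ) : ℝ) * ms M| ≤ 3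
  linarith

theorem arcSum_sq_le' {M : ℕ} (hM : 0 < M) (c : ℂ) (v : ℕ → ℂ) {i j : ℕ} (hi : i ≤ nc M)
    (hj : j ≤ nc M) :
    ENNReal.ofReal (‖arcSum (nc M) v i j‖ ^ 2) ≤
      72 * ENNReal.ofReal (‖c‖ ^ 2) + 2 * dv M c v := by
  refine (arcSum_sq_le c v hi hj).trans ?_
  refine add_le_add ?_ le_rfl
  have h1 : ‖gateC M j - gateC M i‖ ^ 2 ≤ 36 := by
    have := norm_sub_le (gateC M j) (gateC M i)
    have h2 := norm_gateC_le hM i
    have h3 := norm_gateC_le hM j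
    have h4 := norm_nonneg (gateC M j - gateC M i)
    nlinarith
  have e2 : (2 : ℝ≥0∞) = ENNReal.ofReal 2 := by norm_num
  have e72 : (72 : ℝ≥0∞) = ENNReal.ofReal 72 := by norm_num
  rw [e2, e72, ← ENNReal.ofReal_mul (by norm_num), ← ENNReal.ofReal_mul (by norm_num)]
  apply ENNReal.ofReal_le_ofReal
  have h5 : 0 ≤ ‖c‖ ^ 2 := by positivity
  nlinarith

variable {Ω : Type*} [MeasurableSpace Ω] {P : Measure Ω} [IsProbabilityMeasure P]
  {S : Ω → Set Pt} {lam : ℝ≥0} {M q r : ℕ} {R K : ℝ} {m : ℕ → Set Pt → ℂ}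

/-- **Row N5** in the form `UB`. -/
theorem lln_UB (h : IsColouredPoisson P S lam) (hm : Means M q R K m) (hM : 0 < M)
    (hK : 0 ≤ K) (hR : 4 * R ≤ r + 1) {α : Ω → Type} [∀ ω, Fintype (α ω)] (w : ∀ ω, α ω → ℝ)
    (v : ∀ ω, ℕ → α ω → ℂ) (A : Set Ω)
    (hA : ∀ ω ∈ A, Quen M r K (w ω) (v ω) (fun k => m k (S ω))) :
    UB P (fun ω => ⨆ _ : ω ∈ A, ∑ a, ENNReal.ofReal (w ω a) *
      dv M (slope P S M q m) (fun k => v ω k a)) (ENNReal.ofReal (err (cN5 K r q) M)) := by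
  obtain ⟨g, g0, g1, g2, g3⟩ := lln_ring h hm hM hK hR
  refine ⟨fun ω => ENNReal.ofReal (g1.aestronglyMeasurable.mk g ω),
    g1.aestronglyMeasurable.stronglyMeasurable_mk.measurable.ennreal_ofReal, ?_, ?_⟩
  · filter_upwards [g1.aestronglyMeasurable.ae_eq_mk] with ω hω
    refine iSup_le fun hωA => ?_
    obtain ⟨D, d0, d1, d2⟩ := g3 ω (w ω) (v ω) (hA ω hωA)
    rw [← hω]
    calc ∑ a, ENNReal.ofReal (w ω a) * dv M (slope P S M q m) (fun k => v ω k a)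
        ≤ ∑ a, ENNReal.ofReal (w ω a) * ENNReal.ofReal (D a) := by
          refine Finset.sum_le_sum fun a _ => ?_
          gcongr
          exact dv_le (d2 a)
      _ = ENNReal.ofReal (∑ a, w ω a * D a) := by
          rw [ENNReal.ofReal_sum_of_nonneg fun a _ => mul_nonneg ((hA ω hωA).w0 a) (d0 a)]
          refine Finset.sum_congr rfl fun a _ => ?_
          rw [ENNReal.ofReal_mul ((hA ω hωA).w0 a)]
      _ ≤ ENNReal.ofReal (g ω) := ENNReal.ofReal_le_ofReal d1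
  · have h1 : ∫⁻ ω, ENNReal.ofReal (g1.aestronglyMeasurable.mk g ω) ∂P =
        ∫⁻ ω, ENNReal.ofReal (g ω) ∂P := by
      refine lintegral_congr_ae ?_
      filter_upwards [g1.aestronglyMeasurable.ae_eq_mk] with ω hω
      rw [hω]
    rw [h1, ← ofReal_integral_eq_lintegral_ofReal g1 (Filter.Eventually.of_forall g0)]
    exact ENNReal.ofReal_le_ofReal g2

end Vale.Agent.P148.R2.H598
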