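import Vale.Agent.P148.R2.H504.Gl
import Vale.Agent.P148.R2.H598.Lln2

/-!
# Row N5 for the quenched law of the collar

`quen_gl` : `H172.GateLaw` gives the quenched data `Quen`; `lln_gl` : the law of large numbers for
the pieces `F k (g.w c₁ c₂)`, quenched mean of the dominating function at most `g ω`.
-/

namespace Vale.Agent.P148.R2.H598

open MeasureTheory ProbabilityTheory Finset Filter Topology N Vale.Agent.P148.R2.H504
open _root_.P148 _root_.P148.H729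
open H953 (ex pr On)
open H172 (GateLaw ex2)
open scoped ComplexConjugate ENNReal NNReal Classical

section gl

variable {V : Type*} [Fintype V] {g : GateLaw V}

theorem quen_gl {M : ℕ} {c : ℝ} (hc : 0 < c) (hH : ∀ k < g.n, c ≤ pr (g.He k))
    (hC : ∀ k < g.n, c ≤ pr (g.Ce k)) {K : ℝ} (r : ℕ)
    (F : ℕ → (V → Bool) → ℂ) (Z : ℕ → Set V) (t : ℕ → Finset ℕ)
    (hF : ∀ k < nc M, On (Z k) (F k)) (ht : ∀ k < nc M, g.Touch (Z k) (t k))
    (hZZ : ∀ i < nc M, ∀ j < nc M, j ∉ near (nc M) r i → Disjoint (Z i) (Z j))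
    (htt : ∀ i < nc M, ∀ j < nc M, j ∉ near (nc M) r i → Disjoint (t i) (t j))
    (hK : ∀ k < nc M, (g.qe fun c₁ c₂ => ‖F k (g.w c₁ c₂)‖ ^ 2) ≤ K * ms M ^ 2) :
    Quen M r K (gw g) (fun k p => F k (g.w p.1 p.2)) (fun k => qm g (F k)) where
  w0 := gw_nonneg g
  w1 := by
    have := sum_gw g fun _ _ => 1
    simp only [mul_one] at this
    rw [this]
    exact g.qe_const hc hH hC 1
  sq k hk := by
    rw [sum_gw g fun c₁ c₂ => ‖F k (g.w c₁ c₂)‖ ^ 2]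
    exact hK k hk
  ind i hi j hj hij φ ψ := by
    rw [sum_gw g fun c₁ c₂ => φ (F i (g.w c₁ c₂)) * ψ (F j (g.w c₁ c₂)),
      sum_gw g fun c₁ c₂ => φ (F i (g.w c₁ c₂)), sum_gw g fun c₁ c₂ => ψ (F j (g.w c₁ c₂))]
    exact g.qe_indep hc hH hC (ht i hi) (ht j hj) (htt i hi j hj hij) (hZZ i hi j hj hij)
      (F := fun σ => φ (F i σ)) (G := fun σ => ψ (F j σ))
      (fun σ ρ h => congrArg φ (hF i hi σ ρ h)) (fun σ ρ h => congrArg ψ (hF j hj σ ρ h))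
  mean k _ := rfl

end gl

theorem Quen.congr {M r : ℕ} {K : ℝ} {α : Type*} [Fintype α] {w : α → ℝ} {v : ℕ → α → ℂ}
    {μ μ' : ℕ → ℂ} (h : Quen M r K w v μ) (hμ : ∀ k < nc M, μ k = μ' k) : Quen M r K w v μ' where
  w0 := h.w0
  w1 := h.w1
  sq := h.sq
  ind := h.ind
  mean k hk := (h.mean k hk).trans (hμ k hk)

variable {Ω : Type*} [MeasurableSpace Ω] {P : Measure Ω} [IsProbabilityMeasure P]
  {S : Ω → Set Pt} {lam : ℝ≥0} {M q r : ℕ} {R K : ℝ} {m : ℕ → Set Pt → ℂ}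

/-- **Row N5 for the collar.** `c` is the slope; for every configuration of points with a gate law
whose local means are `m k (S ω)`, an explicit function `D` of the coins dominates all the squares
and has quenched mean at most `g ω`. -/
theorem lln_gl (h : IsColouredPoisson P S lam) (hm : Means M q R K m) (hM : 0 < M)
    (hK : 0 ≤ K) (hR : 4 * R ≤ r + 1) :
    ∃ g : Ω → ℝ, (∀ ω, 0 ≤ g ω) ∧ Integrable g P ∧ ∫ ω, g ω ∂P ≤ err (cN5 K r q) M ∧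
      ∀ (ω : Ω) {V : Type} [Fintype V] (γ : GateLaw V) {c : ℝ}, 0 < c →
        (∀ k < γ.n, c ≤ pr (γ.He k)) → (∀ k < γ.n, c ≤ pr (γ.Ce k)) →
        ∀ (F : ℕ → (V → Bool) → ℂ) (Z : ℕ → Set V) (t : ℕ → Finset ℕ),
        (∀ k < nc M, On (Z k) (F k)) → (∀ k < nc M, γ.Touch (Z k) (t k)) →
        (∀ i < nc M, ∀ j < nc M, j ∉ near (nc M) r i → Disjoint (Z i) (Z j)) →
        (∀ i < nc M, ∀ j < nc M, j ∉ near (nc M) r i → Disjoint (t i) (t j)) →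
        (∀ k < nc M, (γ.qe fun c₁ c₂ => ‖F k (γ.w c₁ c₂)‖ ^ 2) ≤ K * ms M ^ 2) →
        (∀ k < nc M, qm γ (F k) = m k (S ω)) →
        ∃ D : (V → Bool) → (V → Bool) → ℝ, (∀ c₁ c₂, 0 ≤ D c₁ c₂) ∧ γ.qe D ≤ g ω ∧
          ∀ c₁ c₂, ∀ i ≤ nc M, ∀ j ≤ nc M,
            ‖arcSum (nc M) (fun k => F k (γ.w c₁ c₂)) i j -
              slope P S M q m * (gateC M j - gateC M i)‖ ^ 2 ≤ D c₁ c₂ := by
  obtain ⟨g, g0, g1, g2, g3⟩ := lln_ring h hm hM hK hR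
  refine ⟨g, g0, g1, g2, fun ω V _ γ c hc hH hC F Z t hF ht hZZ htt hK hmean => ?_⟩
  obtain ⟨D, d0, d1, d2⟩ := g3 ω (gw γ) (fun k p => F k (γ.w p.1 p.2))
    ((quen_gl hc hH hC r F Z t hF ht hZZ htt hK).congr hmean)
  refine ⟨fun c₁ c₂ => D (c₁, c₂), fun c₁ c₂ => d0 _, ?_, fun c₁ c₂ i hi j hj => d2 (c₁, c₂) i hi j hj⟩
  rw [← sum_gw]
  exact d1

end Vale.Agent.P148.R2.H598
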