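import Vale.Agent.P148.R2.H598.Lln5
import Vale.Agent.P148.R2.H504.Bridge
import Vale.Agent.P148.R2.H729.Mk2
import Vale.Agent.P148.R2.H172.N3d

/-!
# Row N5: the quenched inputs on the sites of a world

`win_agree` : the sites in the window `win M 8 k` and all the sites have the same neighbour relation
on the boxes of the gates `tk M k`. `quen_site` : `Quen` for the comb law on the sites with the
truncated local means `mT`.
-/

namespace Vale.Agent.P148.R2.H598

open MeasureTheory ProbabilityTheory Filter Topology N Set Metric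
open _root_.P148 _root_.P148.H729
open Vale.Agent.P148.R2.H504 (NAgree tk cF mker qm gw Zk)
open Vale.Agent.P148.R2.H172 (GateLaw combLaw)
open Vale.Agent.P148.R2.H291 (site bR SiteOK adj_congr nbr_iff_adj Stab)
open Vale.Agent.P148.R2.H566 (Ev)
open Vale.Agent.P148.R2.H592 (nbr Three Generic)
open Vale.Agent.P148.R2.H938 (HBx CBx)
open Vale.Agent.P148.R2.H184 (Dt)
open Vale.Agent.P148.R2.H953 (pr)
open Vale.Agent.P148.R2.H995 (nsup)
open scoped ENNReal NNReal

universe u v

variable {M k : ℕ}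

theorem csq_sub_csq {z z' : ℂ} {r r' : ℝ} (h : nsup (z - z') + r ≤ r') : csq z r ⊆ csq z' r' := by
  intro w hw
  have h1 : |z.re - z'.re| ≤ nsup (z - z') := by
    have : |(z - z').re| ≤ nsup (z - z') := le_max_left _ _
    rwa [Complex.sub_re] at this
  have h2 : |z.im - z'.im| ≤ nsup (z - z') := by
    have : |(z - z').im| ≤ nsup (z - z') := le_max_right _ _
    rwa [Complex.sub_im] at this
  have h3 := abs_sub_le w.re z.re z'.re
  have h4 := abs_sub_le w.im z.im z'.im
  have h5 : |w.re - z.re| < r := hw.1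
  have h6 : |w.im - z.im| < r := hw.2
  exact ⟨show |w.re - z'.re| < r' by linarith, show |w.im - z'.im| < r' by linarith⟩

theorem mem_tk {l : ℕ} (h : l ∈ tk M k) : nsup (cellC M l - cellC M k) < 21 / 4 * ms M := by
  classical
  unfold tk at h
  exact (Finset.mem_filter.1 h).2

/-- The boxes of the gates `tk M k` are inside the window. -/
theorem hbx_sub (hM : 0 < M) {l : ℕ} (h : l ∈ tk M k) :
    HBx M l ⊆ csq (cellC M k) (15 / 2 * ms M) :=
  (H504.hbx_sub_csq hM l).trans (csq_sub_csq (by have := mem_tk h; linarith))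

theorem cbx_sub (hM : 0 < M) {l : ℕ} (h : l ∈ tk M k) :
    CBx M l ⊆ csq (cellC M k) (15 / 2 * ms M) :=
  (H504.cbx_sub_csq hM l).trans (csq_sub_csq (by have := mem_tk h; linarith))

theorem csq_sub_win (hM : 0 < M) : csq (cellC M k) (15 / 2 * ms M) ⊆ win M 8 k := by
  have := ms_pos hM
  exact H504.csq_mono (by linarith)

theorem closedBall_sub_win {u : ℂ} (hu : u ∈ csq (cellC M k) (15 / 2 * ms M)) {s : ℝ}
    (hs : 10 * s < ms M) : closedBall u (5 * s) ⊆ win M 8 k := by
  intro w hw
  rw [mem_closedBall, Complex.dist_eq] at hw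
  have h1 : |w.re - u.re| ≤ 5 * s := by
    have := Complex.abs_re_le_norm (w - u)
    rw [Complex.sub_re] at this
    linarith
  have h2 : |w.im - u.im| ≤ 5 * s := by
    have := Complex.abs_im_le_norm (w - u)
    rw [Complex.sub_im] at this
    linarith
  have h3 := abs_sub_le w.re u.re (cellC M k).re
  have h4 := abs_sub_le w.im u.im (cellC M k).im
  have h5 : |u.re - (cellC M k).re| < 15 / 2 * ms M := hu.1
  have h6 : |u.im - (cellC M k).im| < 15 / 2 * ms M := hu.2
  exact ⟨show |w.re - (cellC M k).re| < 8 * ms M by linarith,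
    show |w.im - (cellC M k).im| < 8 * ms M by linarith⟩

/-- The sites of the window. -/
theorem win_agree (hM : 0 < M) {X : Set ℂ} {s : ℝ} (h0 : 0 < s) (hs : 10 * s < ms M)
    (hst : ∀ u ∈ csq (cellC M k) (15 / 2 * ms M), Stab X u s) {A : Set ℂ}
    (hA : A ⊆ csq (cellC M k) (15 / 2 * ms M)) : NAgree X (X ∩ win M 8 k) A where
  pts := by
    rw [inter_assoc, inter_eq_self_of_subset_right (hA.trans (csq_sub_win hM))]
  nb u hu v := by
    have hb := closedBall_sub_win (hA hu) hs
    have e : X ∩ closedBall u (5 * s) = X ∩ win M 8 k ∩ closedBall u (5 * s) := by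
      rw [inter_assoc, inter_eq_self_of_subset_right hb]
    have h1 := hst u (hA hu)
    have h2 : Stab (X ∩ win M 8 k) u s := h1.congr h0 (by rw [e]; exact inter_subset_left)
    rw [nbr_iff_adj, nbr_iff_adj]
    exact ⟨adj_congr h1 h0 e, adj_congr h2 h0 e.symm⟩

/-! ### the local mean on the sites of the window -/

section mker

variable {V : Type v} [Fintype V] {e : V → ℂ}

open scoped Classical in
/-- `mraw` (pairs of sets) is `mker` (pairs of colourings). -/
theorem mraw_eq_mker (hM : 0 < M) (he : Function.Injective e) (Θ : Dt → ℂ) (k : ℕ) :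
    mraw M Θ k (range e) = mker M (tk M k) k e Θ := by
  have hval : ∀ c₁ c₂, H565.cellV M (range e)
      (H938.pc e true ((combLaw hM (range e) e).W (tk M k) c₁ c₂)) Θ k =
      H504.valT M (tk M k) k e Θ c₁ c₂ := by
    intro c₁ c₂
    unfold H504.valT
    rw [H172.pc_W e hM (range e) he (tk M k) true c₁ c₂]
  unfold mker
  rw [H504.ex2C_ite]
  apply Complex.ext
  · rw [mraw_re hM he]
    refine congrArg₂ (· / ·) (H504.ex2_congr fun c₁ c₂ => ?_) rfl
    by_cases h : H504.evT M (tk M k) (range e) e c₁ c₂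
    · rw [if_pos h, ← hval]
      exact if_pos h
    · rw [if_neg h]
      exact if_neg h
  · rw [mraw_im hM he]
    refine congrArg₂ (· / ·) (H504.ex2_congr fun c₁ c₂ => ?_) rfl
    by_cases h : H504.evT M (tk M k) (range e) e c₁ c₂
    · rw [if_pos h, ← hval]
      exact if_pos h
    · rw [if_neg h]
      exact if_neg h

/-- The local mean on the sites of the window is the local mean on all the sites. -/
theorem mraw_window (hM : 0 < M) (he : Function.Injective e) {s : ℝ} (h0 : 0 < s)
    (hs : 10 * s < ms M) (hst : ∀ u ∈ csq (cellC M k) (15 / 2 * ms M), Stab (range e) u s)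
    (Θ : Dt → ℂ) : mraw M Θ k (range e ∩ win M 8 k) = mker M (tk M k) k e Θ := by
  classical
  set ι : {v : V // e v ∈ win M 8 k} → V := Subtype.val with hι
  have hW : ∀ v, e v ∈ win M 8 k ↔ v ∈ range ι := by
    intro v
    rw [hι, Subtype.range_coe_subtype, mem_ofPred_eq]
  have hz : Zk M k ⊆ csq (cellC M k) (15 / 2 * ms M) := by
    have := ms_pos hM
    exact H504.csq_mono (by linarith)
  have hin := Subtype.val_injective (p := fun v : V => e v ∈ win M 8 k)
  rw [← H504.mker_window (ι := ι) hin hW (fun l hl => (hbx_sub hM hl).trans (csq_sub_win hM))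
    (fun l hl => (cbx_sub hM hl).trans (csq_sub_win hM)) (hz.trans (csq_sub_win hM))
    (fun l hl => win_agree hM h0 hs hst (hbx_sub hM hl))
    (fun l hl => win_agree hM h0 hs hst (cbx_sub hM hl)) Θ,
    ← mraw_eq_mker hM (he.comp hin), H504.range_comp' hW]

end mker

/-! ### the quenched inputs on the sites of a world -/

theorem ms_le_fifth {M : ℕ} (hM : 5 ≤ M) : ms M ≤ 1 / 5 := by
  have h1 := M_mul_ms (M := M) (by omega)
  have h2 : (5 : ℝ) ≤ M := by exact_mod_cast hM
  have h3 := ms_pos (M := M) (by omega)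
  nlinarith

theorem nsup_cellC (hM : 0 < M) (k : ℕ) : nsup (cellC M k) = 1 + ms M / 2 := by
  have h0 := ms_pos hM
  have h1 := N.mod_mul_le hM k
  unfold cellC
  rw [H959.nsup_I_pow_mul]
  unfold nsup
  simp only
  have h2 : (0 : ℝ) ≤ ((k % (2 * M + 1) : ℕ) : ℝ) * ms M := by positivity
  rw [abs_of_pos (show (0 : ℝ) < 1 + ms M / 2 by linarith), max_eq_left]
  rw [abs_le]
  constructor <;> linarith

/-- The windows are in the disc of radius `6`. -/
theorem csq_sub_ball (hM : 5 ≤ M) (k : ℕ) {r : ℝ} (hr : r ≤ 8) :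
    csq (cellC M k) (r * ms M) ⊆ ball (0 : ℂ) 6 := by
  intro w hw
  have h0 := ms_pos (M := M) (by omega)
  have h1 := ms_le_fifth hM
  have h2 := nsup_cellC (M := M) (by omega) k
  have h3 : nsup w < 1 + ms M / 2 + 8 * ms M := by
    have hr' : r * ms M ≤ 8 * ms M := by gcongr
    have h5 : |w.re - (cellC M k).re| < r * ms M := hw.1
    have h6 : |w.im - (cellC M k).im| < r * ms M := hw.2
    have h7 : |(cellC M k).re| ≤ nsup (cellC M k) := le_max_left _ _
    have h8 : |(cellC M k).im| ≤ nsup (cellC M k) := le_max_right _ _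
    have h9 := abs_sub_abs_le_abs_sub w.re (cellC M k).re
    have h10 := abs_sub_abs_le_abs_sub w.im (cellC M k).im
    unfold nsup
    rw [max_lt_iff]
    constructor <;> linarith
  have h4 := H291.norm_le_nsup w
  rw [mem_ball_zero_iff]
  linarith

section site

variable {V : Type v} [Fintype V] {e : V → ℂ} {T : Set Pt} {R s : ℝ}

theorem three_of_generic {b : ZMod 3 → ℂ} (h : Generic T b) {X : Set ℂ} (hX : X ⊆ pts T) :
    Three X := H592.three_of_conc (hX.trans subset_union_left) h.2

/-- **The quenched mean on the sites of a world is the local mean `mT`.** -/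
theorem qm_eq_mT (hM : 5 ≤ M) (he : Function.Injective e) (h : SiteOK T R s) (hR : 7 ≤ R)
    (hs : 10 * s < ms M) (hr : range e = site T R) {c : ℝ} (hc : 0 < c)
    (hH : ∀ l < nc M, c ≤ pr ((combLaw (by omega : 0 < M) (range e) e).He l))
    (hC : ∀ l < nc M, c ≤ pr ((combLaw (by omega : 0 < M) (range e) e).Ce l)) {Θ : Dt → ℂ}
    {K : ℝ} {k : ℕ}
    (hK : ((combLaw (by omega : 0 < M) (range e) e).qe fun c₁ c₂ =>
      ‖cF M e (fun k => H488.cw (H488.hc M k) Θ) k
        ((combLaw (by omega : 0 < M) (range e) e).w c₁ c₂)‖ ^ 2) ≤ K * ms M ^ 2) :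
    qm (combLaw (by omega : 0 < M) (range e) e) (cF M e (fun k => H488.cw (H488.hc M k) Θ) k) =
      mT M Θ K 8 k T := by
  have hM0 : 0 < M := by omega
  have hwin : win M 8 k ⊆ ball (0 : ℂ) 6 := csq_sub_ball hM k le_rfl
  have hst : ∀ u ∈ csq (cellC M k) (15 / 2 * ms M), Stab (range e) u s := by
    intro u hu
    rw [hr]
    refine h.stabX ?_
    have h1 := csq_sub_ball hM k (by norm_num : (15 / 2 : ℝ) ≤ 8) hu
    rw [mem_ball] at h1
    rw [mem_closedBall]
    linarith
  have h1 := H504.qm_eq_mker hM0 he hc hH hC (fun k => H488.cw (H488.hc M k) Θ) k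
  have h2 := mraw_window (k := k) hM0 he h.hs hs hst (H488.cw (H488.hc M k) Θ)
  have h3 : range e ∩ win M 8 k = pts T ∩ win M 8 k := by
    rw [hr]
    exact h.agree (hwin.trans (ball_subset_ball (by linarith)))
  have h4 : qm (combLaw hM0 (range e) e) (cF M e (fun k => H488.cw (H488.hc M k) Θ) k) =
      mraw M (H488.cw (H488.hc M k) Θ) k (pts T ∩ win M 8 k) := by
    rw [h1, ← h2, h3]
  rw [h4]
  symm
  refine mT_eq ?_ ?_ ?_
  · refine (h.gen.1 6).subset ?_
    exact inter_subset_inter_right _ (prod_mono hwin (subset_univ _))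
  · exact three_of_generic h.gen (inter_subset_left.trans inter_subset_left)
  · rw [← h4]
    exact (H504.norm_qm_sq_le _ hc hH hC _).trans hK

open scoped Classical in
/-- **The quenched inputs of row N5 on the sites of a world.** -/
theorem quen_site (hM : 5 ≤ M) (he : Function.Injective e) (h : SiteOK T R s) (hR : 7 ≤ R)
    (hs : 10 * s < ms M) (hr : range e = site T R) {c : ℝ} (hc : 0 < c)
    (hH : ∀ l < nc M, c ≤ pr ((combLaw (by omega : 0 < M) (range e) e).He l))
    (hC : ∀ l < nc M, c ≤ pr ((combLaw (by omega : 0 < M) (range e) e).Ce l)) {Θ : Dt → ℂ}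
    {K : ℝ}
    (hK : ∀ k < nc M, ((combLaw (by omega : 0 < M) (range e) e).qe fun c₁ c₂ =>
      ‖cF M e (fun k => H488.cw (H488.hc M k) Θ) k
        ((combLaw (by omega : 0 < M) (range e) e).w c₁ c₂)‖ ^ 2) ≤ K * ms M ^ 2) :
    Quen M 31 K (gw (combLaw (by omega : 0 < M) (range e) e))
      (fun k p => cF M e (fun k => H488.cw (H488.hc M k) Θ) k
        ((combLaw (by omega : 0 < M) (range e) e).w p.1 p.2))
      (fun k => mT M Θ K 8 k T) :=
  (H504.quen_comb (r := 31) (combLaw (by omega : 0 < M) (range e) e) (by omega) rfl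
    (fun _ => rfl) (fun _ => rfl) hc hH hC (by norm_num)
    (fun k => H488.cw (H488.hc M k) Θ) hK).congr
    fun k hk => qm_eq_mT hM he h hR hs hr hc hH hC (hK k hk)

end site

/-! ### transport to the scene -/

/-- Transport of the quenched data along an equivalence. -/
theorem Quen.equiv {α β : Type*} [Fintype α] [Fintype β] {r : ℕ} {K : ℝ} {w : β → ℝ}
    {v : ℕ → β → ℂ} {μ : ℕ → ℂ} (h : Quen M r K w v μ) (φ : α ≃ β) {w' : α → ℝ}
    {v' : ℕ → α → ℂ} (hw : ∀ a, w' a = w (φ a)) (hv : ∀ k a, v' k a = v k (φ a)) :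
    Quen M r K w' v' μ := by
  have e1 : w' = fun a => w (φ a) := funext hw
  have e2 : v' = fun k a => v k (φ a) := funext fun k => funext fun a => hv k a
  subst e1 e2
  refine ⟨fun a => h.w0 _, ?_, fun k hk => ?_, fun i hi j hj hij f g => ?_, fun k hk => ?_⟩
  · rw [φ.sum_comp]
    exact h.w1
  · rw [φ.sum_comp fun b => w b * ‖v k b‖ ^ 2]
    exact h.sq k hk
  · rw [φ.sum_comp fun b => w b * (f (v i b) * g (v j b)), φ.sum_comp fun b => w b * f (v i b),
      φ.sum_comp fun b => w b * g (v j b)]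
    exact h.ind i hi j hj hij f g
  · rw [← h.mean k hk]
    unfold H504.fmean
    exact φ.sum_comp fun b => (w b : ℂ) * v k b

open scoped Classical in
/-- **N5 for scenes made of the comb law on the sites.** -/
theorem LlnData.of_site {s : ℕ → Set Pt → H566.Scene} {v : ∀ M T, (s M T).ι → ℕ → ℂ} {q : ℕ}
    (hM : 5 ≤ M) {Θ : Dt → ℂ} {K : ℝ} (hK : 0 ≤ K)
    (hm : Means M q 8 K (fun k => mT M Θ K 8 k)) {G : Set Pt → Prop} (hG : Ev.{u} G)
    {R σ c : ℝ} (hR : 7 ≤ R) (hσ : 10 * σ < ms M) (hc : 0 < c)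
    (h : ∀ T, G T → SiteOK T R σ ∧ ∃ (V : Type) (_ : Fintype V) (e : V → ℂ)
      (φ : (s M T).ι ≃ (V → Bool) × (V → Bool)), Function.Injective e ∧ range e = site T R ∧
      (∀ l < nc M, c ≤ pr ((combLaw (by omega : 0 < M) (range e) e).He l)) ∧
      (∀ l < nc M, c ≤ pr ((combLaw (by omega : 0 < M) (range e) e).Ce l)) ∧
      (∀ k < nc M, ((combLaw (by omega : 0 < M) (range e) e).qe fun c₁ c₂ =>
        ‖cF M e (fun k => H488.cw (H488.hc M k) Θ) k
          ((combLaw (by omega : 0 < M) (range e) e).w c₁ c₂)‖ ^ 2) ≤ K * ms M ^ 2) ∧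
      (∀ i, (s M T).p i = ENNReal.ofReal
        (gw (combLaw (by omega : 0 < M) (range e) e) (φ i))) ∧
      ∀ i k, v M T i k = cF M e (fun k => H488.cw (H488.hc M k) Θ) k
        ((combLaw (by omega : 0 < M) (range e) e).w (φ i).1 (φ i).2)) :
    LlnData.{u} s v q (fun M k => mT M Θ K 8 k) (cN5 K 31 q) M := by
  refine LlnData.of_quen (M := M) (R := 8) (by omega) hK (by norm_num) hm hG
    (fun T i => ((s M T).p i).toReal) (fun T hT i => ?_) fun T hT => ?_
  · obtain ⟨-, V, _, e, φ, -, -, -, -, -, h1, -⟩ := h T hT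
    rw [h1, ENNReal.toReal_ofReal (H504.gw_nonneg _ _)]
  · obtain ⟨h0, V, _, e, φ, he, hr, hH, hC, hK2, h1, h2⟩ := h T hT
    refine (quen_site hM he h0 hR hσ hr hc hH hC hK2).equiv φ (fun i => ?_) fun k i => h2 i k
    rw [h1, ENNReal.toReal_ofReal (H504.gw_nonneg _ _)]

end Vale.Agent.P148.R2.H598
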