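import Vale.Agent.P148.R2.H144.T3b

/-!
# Reduction of the missing energy statement to one square (P148, row OMEGA)

By scaling and translation it is enough to bound the missing energy of one square for large
intensities.
-/

open MeasureTheory Set Metric Topology Filter ProbabilityTheory
open scoped ENNReal NNReal

namespace Vale.Agent.P148.R2.H598

open H592 H184 H144 _root_.P148 _root_.P148.H729

universe u

theorem EQ_mul (X Q : Set ℂ) (Θ : Dt → ℂ) (r : ℝ) :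
    EQ X Q (fun e => r * Θ e) = ENNReal.ofReal (r ^ 2) * EQ X Q Θ := by
  classical
  unfold EQ
  rw [← ENNReal.tsum_mul_left]
  refine tsum_congr fun d => ?_
  split_ifs
  · rw [norm_mul, mul_pow, Complex.norm_real, Real.norm_eq_abs, sq_abs,
      ENNReal.ofReal_mul (by positivity)]
  · rw [mul_zero]

/-- **Equivariance** of the energy of the local faces. -/
theorem EQ_sim {r : ℝ} (hr : 0 < r) (v : ℂ) (Q : Set ℂ) {τ : ℂ} {κ : ℝ} {Θ : Dt → ℂ}
    (hΘ : Wt τ κ Θ) (X : Set ℂ) :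
    EQ (sim r v '' X) (sim r v '' Q) Θ = ENNReal.ofReal (r ^ 2) * EQ X Q Θ := by
  rw [(tr_sim hr v X Q (c := fun _ => true) (c' := fun _ => true) fun _ _ => rfl).EQ_eq Θ]
  simp_rw [hΘ.sim r v _ hr]
  rw [EQ_mul]

section
variable {Ω : Type u} [MeasurableSpace Ω] {P : Measure Ω} {S : Ω → Set Pt} {lam : ℝ≥0}

theorem simP_poisson (h : IsColouredPoisson P S lam) {r : ℝ≥0} (hr : r ≠ 0) (v : ℂ) :
    IsColouredPoisson P (fun ω => simP r v '' S ω) (lam / r ^ 2) := by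
  have h1 := scale_poisson h hr
  have h2 := iso_poisson h1 (IsometryEquiv.addRight v) (Equiv.refl Bool)
  simp_rw [simP_image]
  exact h2

end

/-- The missing energy of the square with corner `x₀` and side `1` for large intensities. -/
def ME1 (x₀ : ℂ) (Θ : Dt → ℂ) : Prop :=
  ∀ δ : ℝ, 0 < δ → ∃ K : ℝ, 0 < K ∧ ∀ (Ω : Type u) [MeasurableSpace Ω] (P : Measure Ω)
    [IsProbabilityMeasure P] (S : Ω → Set Pt) (lam : ℝ≥0), IsColouredPoisson P S lam →
      K ≤ lam → ∫⁻ ω, EQ (pts (S ω)) (sqr x₀ 1) Θ ∂P ≤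
        4 * ∫⁻ ω, SC (sqr x₀ 1) Θ (S ω) ∂P + ENNReal.ofReal δ

/-- **Reduction to one square.** -/
theorem me_of_me1 {τ : ℂ} {κ : ℝ} {Θ : Dt → ℂ} (hΘ : Wt τ κ Θ) {x₀ : ℂ} (h : ME1.{u} x₀ Θ) :
    ME.{u} Θ := by
  intro δ hδ
  obtain ⟨K, hK0, hK⟩ := h δ hδ
  refine ⟨K, hK0, ?_⟩
  intro Ω _ P _ S lam hS x L hL hKL
  set r : ℝ≥0 := Real.toNNReal L⁻¹ with hrdef
  have hr' : (r : ℝ) = L⁻¹ := Real.coe_toNNReal _ (by positivity)
  have hrpos : (0 : ℝ) < r := by rw [hr']; positivity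
  have hr0 : r ≠ 0 := by
    intro h0
    rw [h0] at hrpos
    exact lt_irrefl _ hrpos
  set v : ℂ := x₀ - (r : ℝ) * x with hv
  have h1 := simP_poisson hS hr0 v
  have e0 : sim r v x = x₀ := by
    unfold sim
    rw [hv]
    ring
  have e1 : sim r v '' sqr x L = sqr x₀ 1 := by
    rw [sim_image_sqr hrpos, e0, hr', inv_mul_cancel₀ hL.ne']
  have hlam : K ≤ ((lam / r ^ 2 : ℝ≥0) : ℝ) := by
    rw [NNReal.coe_div, NNReal.coe_pow, hr']
    have : (lam : ℝ) / L⁻¹ ^ 2 = lam * L ^ 2 := by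
      field_simp
    rw [this]
    exact hKL
  have key := hK Ω P _ _ h1 hlam
  have f1 : ∀ ω, EQ (pts (simP r v '' S ω)) (sqr x₀ 1) Θ =
      ENNReal.ofReal ((r : ℝ) ^ 2) * EQ (pts (S ω)) (sqr x L) Θ := by
    intro ω
    rw [pts_simP, ← e1, EQ_sim hrpos v _ hΘ]
  have f2 : ∀ ω, SC (sqr x₀ 1) Θ (simP r v '' S ω) =
      ENNReal.ofReal ((r : ℝ) ^ 2) * SC (sqr x L) Θ (S ω) := by
    intro ω
    rw [← e1, SC_sim hrpos v _ hΘ (finite_window hS (isBounded_sqr x L) ω)]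
  simp_rw [f1, f2] at key
  rw [lintegral_const_mul' _ _ ENNReal.ofReal_ne_top,
    lintegral_const_mul' _ _ ENNReal.ofReal_ne_top] at key
  have f3 : ENNReal.ofReal δ = ENNReal.ofReal ((r : ℝ) ^ 2) * ENNReal.ofReal (δ * L ^ 2) := by
    rw [← ENNReal.ofReal_mul (by positivity), hr']
    congr 1
    field_simp
  rw [f3, ← mul_assoc, mul_comm 4, mul_assoc, ← mul_add] at key
  refine (ENNReal.mul_le_mul_iff_right ?_ ENNReal.ofReal_ne_top).1 key
  exact (ENNReal.ofReal_pos.2 (by positivity)).ne'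

end Vale.Agent.P148.R2.H598
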