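import Vale.Agent.P148.R2.H598.Om1

/-!
# Order of the limits in the middle assembly (P148, row OMEGA)

`EvL A`: the property `A` holds for every coloured Poisson process of large intensity.
-/

open MeasureTheory Set Metric Topology Filter ProbabilityTheory
open scoped ENNReal NNReal

namespace Vale.Agent.P148.R2.H598

open H592 H184 H144 _root_.P148 _root_.P148.H729

universe u

/-- Properties of a point process with its intensity. -/
abbrev PP := ∀ (Ω : Type u) [MeasurableSpace Ω] (_ : Measure Ω) (_ : Ω → Set Pt) (_ : ℝ≥0), Prop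

/-- Nonnegative quantities attached to a point process with its intensity. -/
abbrev QQ := ∀ (Ω : Type u) [MeasurableSpace Ω] (_ : Measure Ω) (_ : Ω → Set Pt) (_ : ℝ≥0), ℝ≥0∞

/-- The property holds for all the coloured Poisson processes of large intensity. -/
def EvL (A : PP.{u}) : Prop :=
  ∃ K : ℝ, 0 < K ∧ ∀ (Ω : Type u) [MeasurableSpace Ω] (P : Measure Ω) [IsProbabilityMeasure P]
    (S : Ω → Set Pt) (lam : ℝ≥0), IsColouredPoisson P S lam → K ≤ lam → A Ω P S lam

theorem EvL.mono {A B : PP.{u}} (h : EvL A)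
    (hAB : ∀ (Ω : Type u) [MeasurableSpace Ω] (P : Measure Ω) (S : Ω → Set Pt) (lam : ℝ≥0),
      A Ω P S lam → B Ω P S lam) : EvL B := by
  obtain ⟨K, hK0, hK⟩ := h
  exact ⟨K, hK0, fun Ω _ P _ S lam hS hl => hAB _ _ _ _ (hK Ω P S lam hS hl)⟩

theorem EvL.and {A B : PP.{u}} (h : EvL A) (h' : EvL B) :
    EvL fun Ω _ P S lam => A Ω P S lam ∧ B Ω P S lam := by
  obtain ⟨K, hK0, hK⟩ := h
  obtain ⟨K', hK0', hK'⟩ := h'
  refine ⟨max K K', lt_max_of_lt_left hK0, fun Ω _ P _ S lam hS hl => ⟨?_, ?_⟩⟩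
  · exact hK Ω P S lam hS ((le_max_left _ _).trans hl)
  · exact hK' Ω P S lam hS ((le_max_right _ _).trans hl)

theorem EvL.of_forall {A : PP.{u}} (h : ∀ (Ω : Type u) [MeasurableSpace Ω] (P : Measure Ω)
    [IsProbabilityMeasure P] (S : Ω → Set Pt) (lam : ℝ≥0), IsColouredPoisson P S lam →
      A Ω P S lam) : EvL A :=
  ⟨1, one_pos, fun Ω _ P _ S lam hS _ => h Ω P S lam hS⟩

theorem EvL.all {ι : Type*} (s : Finset ι) {A : ι → PP.{u}} (h : ∀ i ∈ s, EvL (A i)) :
    EvL fun Ω _ P S lam => ∀ i ∈ s, A i Ω P S lam := by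
  classical
  induction s using Finset.induction_on with
  | empty => exact EvL.of_forall fun Ω _ P _ S lam _ i hi => by simp at hi
  | insert i s hi ih =>
    have h1 := (h i (Finset.mem_insert_self _ _)).and
      (ih fun j hj => h j (Finset.mem_insert_of_mem hj))
    refine h1.mono fun Ω _ P S lam hAB j hj => ?_
    rcases Finset.mem_insert.1 hj with rfl | hj
    · exact hAB.1
    · exact hAB.2 j hj

/-- The quantity tends to `0` as the intensity tends to infinity. -/
def Van (q : QQ.{u}) : Prop :=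
  ∀ δ : ℝ, 0 < δ → EvL fun Ω _ P S lam => q Ω P S lam ≤ ENNReal.ofReal δ

theorem Van.const_mul {q : QQ.{u}} (h : Van q) {C : ℝ≥0∞} (hC : C ≠ ⊤) :
    Van fun Ω _ P S lam => C * q Ω P S lam := by
  intro δ hδ
  set C' : ℝ := C.toReal + 1 with hC'
  have hC1 : 0 < C' := by positivity
  refine (h (δ / C') (by positivity)).mono fun Ω _ P S lam hq => ?_
  calc C * q Ω P S lam ≤ ENNReal.ofReal C' * ENNReal.ofReal (δ / C') := by
        gcongr
        rw [← ENNReal.ofReal_toReal hC]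
        exact ENNReal.ofReal_le_ofReal (by rw [hC']; linarith)
    _ = ENNReal.ofReal δ := by
        rw [← ENNReal.ofReal_mul hC1.le]
        congr 1
        field_simp

theorem Van.le {q q' : QQ.{u}} (h : Van q) (hq : EvL fun Ω _ P S lam =>
    q' Ω P S lam ≤ q Ω P S lam) : Van q' := fun δ hδ =>
  ((h δ hδ).and hq).mono fun _ _ _ _ _ h1 => h1.2.trans h1.1

/-- Double limit: first the intensity, then the mesh `M` of the ring. -/
def Van2 (q : ℕ → QQ.{u}) : Prop :=
  ∀ δ : ℝ, 0 < δ → ∀ᶠ M : ℕ in atTop, EvL fun Ω _ P S lam => q M Ω P S lam ≤ ENNReal.ofReal δ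

theorem Van2.of_van {q : ℕ → QQ.{u}} (h : ∀ M, Van (q M)) : Van2 q := fun δ hδ =>
  Eventually.of_forall fun M => h M δ hδ

theorem Van2.add {q q' : ℕ → QQ.{u}} (h : Van2 q) (h' : Van2 q') :
    Van2 fun M Ω _ P S lam => q M Ω P S lam + q' M Ω P S lam := by
  intro δ hδ
  filter_upwards [h (δ / 2) (by positivity), h' (δ / 2) (by positivity)] with M h1 h2
  refine (h1.and h2).mono fun Ω _ P S lam hh => ?_
  calc q M Ω P S lam + q' M Ω P S lam ≤ ENNReal.ofReal (δ / 2) + ENNReal.ofReal (δ / 2) :=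
        add_le_add hh.1 hh.2
    _ = ENNReal.ofReal δ := by
        rw [← ENNReal.ofReal_add (by positivity) (by positivity)]
        congr 1
        ring

theorem Van2.const_mul {q : ℕ → QQ.{u}} (h : Van2 q) {C : ℝ≥0∞} (hC : C ≠ ⊤) :
    Van2 fun M Ω _ P S lam => C * q M Ω P S lam := by
  intro δ hδ
  set C' : ℝ := C.toReal + 1 with hC'
  have hC1 : 0 < C' := by positivity
  filter_upwards [h (δ / C') (by positivity)] with M h1
  refine h1.mono fun Ω _ P S lam hq => ?_
  calc C * q M Ω P S lam ≤ ENNReal.ofReal C' * ENNReal.ofReal (δ / C') := by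
        gcongr
        rw [← ENNReal.ofReal_toReal hC]
        exact ENNReal.ofReal_le_ofReal (by rw [hC']; linarith)
    _ = ENNReal.ofReal δ := by
        rw [← ENNReal.ofReal_mul hC1.le]
        congr 1
        field_simp

theorem Van2.sum {ι : Type*} (s : Finset ι) {q : ι → ℕ → QQ.{u}} (h : ∀ i ∈ s, Van2 (q i)) :
    Van2 fun M Ω _ P S lam => ∑ i ∈ s, q i M Ω P S lam := by
  classical
  induction s using Finset.induction_on with
  | empty =>
    intro δ hδ
    refine Eventually.of_forall fun M => EvL.of_forall fun Ω _ P _ S lam _ => ?_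
    simp
  | insert i s hi ih =>
    have := (h i (Finset.mem_insert_self _ _)).add
      (ih fun j hj => h j (Finset.mem_insert_of_mem hj))
    simpa [Finset.sum_insert hi] using this

theorem Van2.le {q q' : ℕ → QQ.{u}} (h : Van2 q) (hq : ∀ᶠ M : ℕ in atTop, EvL fun Ω _ P S lam =>
    q' M Ω P S lam ≤ q M Ω P S lam) : Van2 q' := by
  intro δ hδ
  filter_upwards [h δ hδ, hq] with M h1 h2
  exact (h1.and h2).mono fun _ _ _ _ _ h3 => h3.2.trans h3.1

/-- A quantity bounded by a deterministic sequence tending to `0`. -/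
theorem Van2.of_seq {q : ℕ → QQ.{u}} {e : ℕ → ℝ} (he : Tendsto e atTop (𝓝 0))
    (hq : ∀ᶠ M : ℕ in atTop, EvL fun Ω _ P S lam => q M Ω P S lam ≤ ENNReal.ofReal (e M)) :
    Van2 q := by
  intro δ hδ
  filter_upwards [hq, he.eventually (gt_mem_nhds hδ)] with M h1 h2
  exact h1.mono fun Ω _ P S lam h3 => h3.trans (ENNReal.ofReal_le_ofReal h2.le)

/-- **Order of the limits.** The missing energy of the unit square is bounded, for every mesh `m`
of the arcs and every large mesh `M` of the ring, by three terms: plane classes (`pc`), captured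
excursions (`fl`), small footprints (`sf`). -/
theorem me1_of_rows {x₀ : ℂ} {Θ : Dt → ℂ} {C : ℝ≥0∞} (hC : C ≠ ⊤)
    (pc fl sf : ℕ → ℕ → QQ.{u})
    (hdec : ∀ m, ∀ᶠ M : ℕ in atTop, EvL fun _ _ P S lam =>
      ∫⁻ ω, EQ (pts (S ω)) (sqr x₀ 1) Θ ∂P ≤ 4 * ∫⁻ ω, SC (sqr x₀ 1) Θ (S ω) ∂P +
        C * (pc m M _ P S lam + fl m M _ P S lam + sf m M _ P S lam))
    (hpc : ∀ m M, Van (pc m M)) (hfl : ∀ m, Van2 (fl m))
    (hsf : ∀ δ : ℝ, 0 < δ → ∃ m, ∀ᶠ M : ℕ in atTop, EvL fun Ω _ P S lam =>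
      sf m M Ω P S lam ≤ ENNReal.ofReal δ) : ME1.{u} x₀ Θ := by
  intro δ hδ
  set C' : ℝ := C.toReal + 1 with hC'
  have hC1 : 0 < C' := by positivity
  set ε : ℝ := δ / (3 * C') with hε
  have hε0 : 0 < ε := by positivity
  obtain ⟨m, hm⟩ := hsf ε hε0
  obtain ⟨M, h1, h2, h3⟩ := ((hdec m).and ((hfl m ε hε0).and hm)).exists
  have h4 := hpc m M ε hε0
  obtain ⟨K, hK0, hK⟩ := (h1.and (h2.and (h3.and h4)))
  refine ⟨K, hK0, fun Ω _ P _ S lam hS hl => ?_⟩
  obtain ⟨g1, g2, g3, g4⟩ := hK Ω P S lam hS hl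
  refine g1.trans ?_
  gcongr
  calc C * (pc m M Ω P S lam + fl m M Ω P S lam + sf m M Ω P S lam)
      ≤ ENNReal.ofReal C' * (ENNReal.ofReal ε + ENNReal.ofReal ε + ENNReal.ofReal ε) := by
        gcongr
        rw [← ENNReal.ofReal_toReal hC]
        exact ENNReal.ofReal_le_ofReal (by rw [hC']; linarith)
    _ = ENNReal.ofReal δ := by
        rw [← ENNReal.ofReal_add hε0.le hε0.le, ← ENNReal.ofReal_add (by positivity) hε0.le,
          ← ENNReal.ofReal_mul hC1.le]
        congr 1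
        rw [hε]
        field_simp
        ring

/-- The captured excursions: FLIPA + WARCH + CAL. `wa m M j`: energy of the arches of the pattern
`j`; `mq M`: plane classes; `dr M`: square of the drift; `er M`: deterministic error. -/
theorem fl_of_rows {fl : ℕ → QQ.{u}} {ι : Type*} (s : Finset ι) {wa : ι → ℕ → QQ.{u}}
    {mq dr : ℕ → QQ.{u}} {e e' : ℕ → ℝ} {c C : ℝ≥0∞} {CM : ℕ → ℝ≥0∞} (hc : c ≠ ⊤) (hC : C ≠ ⊤)
    (hCM : ∀ M, CM M ≠ ⊤) (he : Tendsto e atTop (𝓝 0)) (he' : Tendsto e' atTop (𝓝 0))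
    (hmq : ∀ M, Van (mq M))
    (hfl : ∀ᶠ M : ℕ in atTop, EvL fun Ω _ P S lam =>
      fl M Ω P S lam ≤ c * ∑ j ∈ s, wa j M Ω P S lam)
    (hwa : ∀ j ∈ s, ∀ᶠ M : ℕ in atTop, EvL fun Ω _ P S lam =>
      wa j M Ω P S lam ≤ CM M * mq M Ω P S lam + C * dr M Ω P S lam + ENNReal.ofReal (e M))
    (hdr : ∀ᶠ M : ℕ in atTop, EvL fun Ω _ P S lam =>
      dr M Ω P S lam ≤ CM M * mq M Ω P S lam + ENNReal.ofReal (e' M)) : Van2 fl := by
  have h1 : Van2 fun M Ω _ P S lam => CM M * mq M Ω P S lam :=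
    Van2.of_van fun M => (hmq M).const_mul (hCM M)
  have hdr' : Van2 dr :=
    (h1.add (Van2.of_seq (q := fun M _ _ _ _ _ => ENNReal.ofReal (e' M)) he'
      (Eventually.of_forall fun M => EvL.of_forall fun _ _ _ _ _ _ _ => le_rfl))).le hdr
  have hwa' : ∀ j ∈ s, Van2 (wa j) := fun j hj =>
    ((h1.add (hdr'.const_mul hC)).add
      (Van2.of_seq (q := fun M _ _ _ _ _ => ENNReal.ofReal (e M)) he
        (Eventually.of_forall fun M => EvL.of_forall fun _ _ _ _ _ _ _ => le_rfl))).le (hwa j hj)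
  exact ((Van2.sum s hwa').const_mul hc).le hfl

end Vale.Agent.P148.R2.H598
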