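import Vale.Agent.P148.R2.H598.Om2

/-!
# The final quantifiers of the middle assembly (P148, row OMEGA)

The rows are given as families of properties of the process (upper bounds in the `UB` form).
`N` = number of arcs of the mesh, `M` = mesh of the ring, `ε` = the value of the bound.
-/

open MeasureTheory Set Metric Topology Filter ProbabilityTheory
open scoped ENNReal NNReal

namespace Vale.Agent.P148.R2.H598

open H592 H184 H144 _root_.P148 _root_.P148.H729

universe u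

/-- **Final quantifiers.** `pcP`: plane classes (for all `N`, `M`), `flP`: captured excursions
(for all `N`, for large `M`), `sfP`: small footprints (for some `N`, for large `M`), `totP`: crude
bound by the constant `CT`. The inequality of the split families turns them into the missing
energy of the unit square. -/
theorem me1_of_props {x₀ : ℂ} {Θ : Dt → ℂ} {C₀ CT : ℝ} (hC₀ : 0 ≤ C₀) (hCT : 0 ≤ CT)
    (pcP flP sfP : ℕ → ℕ → ℝ → PP.{u}) (totP : ℕ → ℕ → PP.{u})
    (hdec : ∀ s : ℝ, 0 < s → ∀ N M : ℕ, ∀ ε₁ ε₂ ε₃ : ℝ, 0 < ε₁ → 0 < ε₂ → 0 < ε₃ →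
      ∀ (Ω : Type u) [MeasurableSpace Ω] (P : Measure Ω) [IsProbabilityMeasure P]
        (S : Ω → Set Pt) (lam : ℝ≥0), IsColouredPoisson P S lam →
        pcP N M ε₁ Ω P S lam → flP N M ε₂ Ω P S lam → sfP N M ε₃ Ω P S lam →
        totP N M Ω P S lam →
        ∫⁻ ω, EQ (pts (S ω)) (sqr x₀ 1) Θ ∂P ≤ 4 * ∫⁻ ω, SC (sqr x₀ 1) Θ (S ω) ∂P +
          ENNReal.ofReal (C₀ * (ε₁ + ε₂ + s * CT + (1 + s⁻¹) * ε₃)))
    (hpc : ∀ N M, ∀ ε, 0 < ε → EvL (pcP N M ε))
    (hfl : ∀ N, ∀ ε, 0 < ε → ∀ᶠ M : ℕ in atTop, EvL (flP N M ε))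
    (hsf : ∀ ε, 0 < ε → ∃ N, ∀ᶠ M : ℕ in atTop, EvL (sfP N M ε))
    (htot : ∀ N, ∀ᶠ M : ℕ in atTop, EvL (totP N M)) : ME1.{u} x₀ Θ := by
  intro δ hδ
  set D : ℝ := C₀ + 1 with hD
  have hD0 : 0 < D := by positivity
  set s : ℝ := δ / (4 * D * (CT + 1)) with hs
  have hs0 : 0 < s := by positivity
  set ε : ℝ := δ / (4 * D * (1 + (1 + s⁻¹))) with hε
  have hε0 : 0 < ε := by positivity
  obtain ⟨N, hN⟩ := hsf ε hε0
  obtain ⟨M, h1, h2, h3⟩ := ((hfl N ε hε0).and (hN.and (htot N))).exists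
  obtain ⟨K, hK0, hK⟩ := (hpc N M ε hε0).and (h1.and (h2.and h3))
  refine ⟨K, hK0, fun Ω _ P _ S lam hS hl => ?_⟩
  obtain ⟨g1, g2, g3, g4⟩ := hK Ω P S lam hS hl
  refine (hdec s hs0 N M ε ε ε hε0 hε0 hε0 Ω P S lam hS g1 g2 g3 g4).trans ?_
  gcongr
  have e1 : s * CT ≤ δ / (4 * D) := by
    rw [hs, div_mul_eq_mul_div, div_le_div_iff₀ (by positivity) (by positivity)]
    have : δ * CT ≤ δ * (CT + 1) := by nlinarith
    nlinarith [mul_le_mul_of_nonneg_right this (show 0 ≤ 4 * D by positivity)]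
  have e2 : (1 + s⁻¹) * ε ≤ δ / (4 * D) := by
    rw [hε, mul_div_assoc', div_le_div_iff₀ (by positivity) (by positivity)]
    have h0 : 0 < s⁻¹ := by positivity
    nlinarith [mul_pos hδ hD0, mul_pos (mul_pos hδ hD0) h0]
  have e3 : ε ≤ δ / (4 * D) := by
    have h0 : 0 < s⁻¹ := by positivity
    nlinarith
  calc C₀ * (ε + ε + s * CT + (1 + s⁻¹) * ε) ≤ D * (ε + ε + s * CT + (1 + s⁻¹) * ε) := by
        apply mul_le_mul_of_nonneg_right (by rw [hD]; linarith)
        have : 0 ≤ s * CT := by positivity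
        have : 0 ≤ (1 + s⁻¹) * ε := by positivity
        linarith
    _ ≤ D * (4 * (δ / (4 * D))) := by
        apply mul_le_mul_of_nonneg_left _ hD0.le
        linarith
    _ = δ := by
        field_simp

end Vale.Agent.P148.R2.H598
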