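import Vale.Agent.P148.R2.H203.T1

/-!
# Orthogonality of the restricted class values (P148)

For a set `A` of faces and any random union `C σ` of classes which contains every class crossing the
boundary of `A`, the mean energy of `C σ` splits over `A` and its complement. Hence the mean energy
of the restrictions `V_κ(1_A Θ)` over the classes in `C σ` is at most the mean energy of the whole
values `V_κ(Θ)`.
-/

open Function ComplexConjugate

namespace Vale.Agent.P148.R2.H598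

open H258 H203

variable {V D : Type*} (T : Tri V D) [Fintype D]

/-- The class of `d` meets both `A` and its complement. -/
def Cross (σ : V → Bool) (A : D → Prop) (d : D) : Prop :=
  (∃ e, T.Rel σ d e ∧ A e) ∧ ∃ e, T.Rel σ d e ∧ ¬ A e

theorem cross_sat (σ : V → Bool) (A : D → Prop) : Sat T σ (Cross T σ A) := by
  rintro d e hr ⟨⟨f, hf, hA⟩, g, hg, hB⟩
  exact ⟨⟨f, T.rel_trans (T.rel_symm hr) hf, hA⟩, g, T.rel_trans (T.rel_symm hr) hg, hB⟩

open Classical in
/-- Mixed energy. -/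
noncomputable def mix (σ : V → Bool) (Θ Θ' : D → ℂ) : ℂ :=
  ∑ d, ∑ e, (if T.Rel σ d e then Θ d * conj (Θ' e) else 0)

theorem tot_eq_mix (σ : V → Bool) (Θ : D → ℂ) : tot T σ Θ = (mix T σ Θ Θ).re := rfl

theorem mix_conj (σ : V → Bool) (Θ Θ' : D → ℂ) : mix T σ Θ' Θ = conj (mix T σ Θ Θ') := by
  classical
  unfold mix
  rw [map_sum, Finset.sum_comm]
  apply Finset.sum_congr rfl; intro d _
  rw [map_sum]
  apply Finset.sum_congr rfl; intro e _
  by_cases h : T.Rel σ d e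
  · rw [if_pos h, if_pos (T.rel_symm h), map_mul, Complex.conj_conj, mul_comm]
  · rw [if_neg h, if_neg (fun h' => h (T.rel_symm h')), map_zero]

theorem tot_add (σ : V → Bool) (Θ Θ' : D → ℂ) :
    tot T σ (fun d => Θ d + Θ' d) = tot T σ Θ + tot T σ Θ' + 2 * (mix T σ Θ Θ').re := by
  classical
  have h : mix T σ (fun d => Θ d + Θ' d) (fun d => Θ d + Θ' d) =
      mix T σ Θ Θ + mix T σ Θ Θ' + (mix T σ Θ' Θ + mix T σ Θ' Θ') := by
    unfold mix
    simp only [← Finset.sum_add_distrib]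
    apply Finset.sum_congr rfl; intro d _
    apply Finset.sum_congr rfl; intro e _
    by_cases h : T.Rel σ d e
    · simp only [h, if_true, map_add]; ring
    · simp only [h, if_false, add_zero]
  rw [tot_eq_mix, tot_eq_mix, tot_eq_mix, h, mix_conj T σ Θ Θ']
  simp only [Complex.add_re, Complex.conj_re]
  ring

/-- Only the classes crossing the boundary of `A` contribute to the mixed energy. -/
theorem mix_rs {σ : V → Bool} {A C : D → Prop} (hC : Sat T σ C)
    (hCA : ∀ d, Cross T σ A d → C d) (Θ : D → ℂ) :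
    mix T σ (rs C (rs A Θ)) (rs C (rs (fun d => ¬ A d) Θ)) =
      mix T σ (rs A Θ) (rs (fun d => ¬ A d) Θ) := by
  classical
  unfold mix
  apply Finset.sum_congr rfl; intro d _
  apply Finset.sum_congr rfl; intro e _
  by_cases h : T.Rel σ d e
  · rw [if_pos h, if_pos h]
    by_cases hd : C d
    · have he : C e := hC d e h hd
      simp [rs, hd, he]
    · have he : ¬ C e := fun hh => hd ((hC.iff h).2 hh)
      have : ¬ (A d ∧ ¬ A e) := by
        rintro ⟨h1, h2⟩
        exact hd (hCA d ⟨⟨d, T.rel_refl h.1, h1⟩, e, h, h2⟩)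
      by_cases h1 : A d
      · have h2 : A e := by by_contra h3; exact this ⟨h1, h3⟩
        simp [rs, hd, he, h2]
      · simp [rs, hd, he, h1]
  · rw [if_neg h, if_neg h]

open Classical in
/-- White noise: restrictions to disjoint sets of faces are orthogonal. -/
theorem sum_mix [Fintype V] (hP : T.Planar) {τ : ℂ} (hτ : τ ^ 2 + τ + 1 = 0) {Θ Θ' : D → ℂ}
    (h : ∀ d, Θ (T.nxt d) = τ ^ 2 * Θ d) (h' : ∀ d, Θ' (T.nxt d) = τ ^ 2 * Θ' d)
    (hg : ∀ d, ¬ T.Good d → Θ d = 0) (h0 : ∀ d, Θ d * conj (Θ' d) = 0) :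
    ∑ σ : V → Bool, mix T σ Θ Θ' = 0 := by
  have e := T.energy hP hτ h h' hg
  rw [Finset.sum_congr rfl (fun d _ => h0 d), Finset.sum_const_zero, mul_zero] at e
  rcases mul_eq_zero.1 e with h1 | h1
  · norm_num at h1
  · exact h1

open Classical in
/-- The mean energy of `C σ` splits over `A` and its complement. -/
theorem sum_split [Fintype V] (hP : T.Planar) {τ : ℂ} (hτ : τ ^ 2 + τ + 1 = 0) {Θ : D → ℂ}
    (h : ∀ d, Θ (T.nxt d) = τ ^ 2 * Θ d) (hg : ∀ d, ¬ T.Good d → Θ d = 0)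
    {A : D → Prop} (hA : ∀ d, A (T.nxt d) ↔ A d) (C : (V → Bool) → D → Prop)
    (hC : ∀ σ, Sat T σ (C σ)) (hCA : ∀ σ d, Cross T σ A d → C σ d) :
    ∑ σ : V → Bool, tot T σ (rs (C σ) Θ) =
      ∑ σ : V → Bool, tot T σ (rs (C σ) (rs A Θ)) +
        ∑ σ : V → Bool, tot T σ (rs (C σ) (rs (fun d => ¬ A d) Θ)) := by
  classical
  have hsp : ∀ σ : V → Bool, rs (C σ) Θ = fun d =>
      rs (C σ) (rs A Θ) d + rs (C σ) (rs (fun d => ¬ A d) Θ) d := by
    intro σ; funext d
    unfold rs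
    by_cases h1 : C σ d <;> by_cases h2 : A d <;> simp [h1, h2]
  have h1 : ∀ σ : V → Bool, tot T σ (rs (C σ) Θ) =
      tot T σ (rs (C σ) (rs A Θ)) + tot T σ (rs (C σ) (rs (fun d => ¬ A d) Θ)) +
        2 * (mix T σ (rs A Θ) (rs (fun d => ¬ A d) Θ)).re := by
    intro σ
    conv_lhs => rw [hsp σ]
    rw [tot_add, mix_rs T (hC σ) (hCA σ)]
  have h2 : ∑ σ : V → Bool, mix T σ (rs A Θ) (rs (fun d => ¬ A d) Θ) = 0 := by
    apply sum_mix T hP hτ (rs_rot h hA) (rs_rot h (fun d => not_congr (hA d))) (rs_good hg A)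
    intro d
    unfold rs
    by_cases h1 : A d <;> simp [h1]
  have h3 := congrArg Complex.re h2
  rw [Complex.re_sum, Complex.zero_re] at h3
  rw [Finset.sum_congr rfl (fun σ _ => h1 σ), Finset.sum_add_distrib, Finset.sum_add_distrib,
    ← Finset.mul_sum, h3]
  ring

open Classical in
/-- **Only whole class values matter.** The mean energy which the classes of `C σ` carry in `A` is at
most the mean energy of their whole values. -/
theorem sum_cross_le [Fintype V] (hP : T.Planar) {τ : ℂ} (hτ : τ ^ 2 + τ + 1 = 0) {Θ : D → ℂ}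
    (h : ∀ d, Θ (T.nxt d) = τ ^ 2 * Θ d) (hg : ∀ d, ¬ T.Good d → Θ d = 0)
    {A : D → Prop} (hA : ∀ d, A (T.nxt d) ↔ A d) (C : (V → Bool) → D → Prop)
    (hC : ∀ σ, Sat T σ (C σ)) (hCA : ∀ σ d, Cross T σ A d → C σ d) :
    ∑ σ : V → Bool, tot T σ (rs (C σ) (rs A Θ)) ≤ ∑ σ : V → Bool, tot T σ (rs (C σ) Θ) := by
  rw [sum_split T hP hτ h hg hA C hC hCA]
  have : 0 ≤ ∑ σ : V → Bool, tot T σ (rs (C σ) (rs (fun d => ¬ A d) Θ)) :=
    Finset.sum_nonneg fun σ _ => tot_nonneg T σ _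
  linarith

/-- The classes which meet `A` and are not in `L`. -/
def NonLoc (σ : V → Bool) (A L : D → Prop) (d : D) : Prop :=
  ¬ L d ∧ ∃ e, T.Rel σ d e ∧ A e

theorem nonLoc_sat {σ : V → Bool} {A L : D → Prop} (hL : Sat T σ L) : Sat T σ (NonLoc T σ A L) := by
  rintro d e hr ⟨h1, f, hf, hAf⟩
  exact ⟨fun h2 => h1 ((hL.iff hr).2 h2), f, T.rel_trans (T.rel_symm hr) hf, hAf⟩

theorem cross_nonLoc {σ : V → Bool} {A L : D → Prop} (hL : Sat T σ L) (hLA : ∀ d, L d → A d)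
    (d : D) (h : Cross T σ A d) : NonLoc T σ A L d := by
  obtain ⟨h1, g, hg1, hg2⟩ := h
  exact ⟨fun h2 => hg2 (hLA g ((hL.iff hg1).1 h2)), h1⟩

/-- Pointwise energy balance of `A`: local classes plus the rest. -/
theorem tot_balance {σ : V → Bool} {A L : D → Prop} (hL : Sat T σ L) (hLA : ∀ d, L d → A d)
    (Θ : D → ℂ) :
    tot T σ (rs A Θ) = tot T σ (rs L Θ) + tot T σ (rs (NonLoc T σ A L) (rs A Θ)) := by
  classical
  rw [hL.tot_split (rs A Θ), rs_rs Θ hLA]
  congr 1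
  have : rs (fun d => ¬ L d) (rs A Θ) = rs (NonLoc T σ A L) (rs A Θ) +
      rs (fun d => ¬ L d ∧ A d ∧ ¬ T.Rel σ d d) Θ := by
    funext d
    simp only [Pi.add_apply]
    unfold rs
    by_cases h1 : L d
    · simp [NonLoc, h1]
    · by_cases h2 : A d
      · by_cases h3 : T.Rel σ d d
        · have : NonLoc T σ A L d := ⟨h1, d, h3, h2⟩
          simp [this, h1, h2, h3]
        · have : ¬ NonLoc T σ A L d := by
            rintro ⟨-, e, he, -⟩
            exact h3 (T.rel_refl he.1)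
          simp [this, h1, h2, h3]
      · simp [h2]
  rw [this]
  change tot T σ (fun d => rs (NonLoc T σ A L) (rs A Θ) d +
    rs (fun d => ¬ L d ∧ A d ∧ ¬ T.Rel σ d d) Θ d) = _
  have hz : ∀ (Φ : D → ℂ), mix T σ Φ (rs (fun d => ¬ L d ∧ A d ∧ ¬ T.Rel σ d d) Θ) = 0 := by
    intro Φ
    unfold mix
    apply Finset.sum_eq_zero; intro d _
    apply Finset.sum_eq_zero; intro e _
    by_cases hr : T.Rel σ d e
    · have : T.Rel σ e e := T.rel_refl (T.rel_symm hr).1
      simp [rs, this]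
    · simp [hr]
  rw [tot_add, hz, tot_eq_mix T σ (rs (fun d => ¬ L d ∧ A d ∧ ¬ T.Rel σ d d) Θ), hz]
  simp

open Classical in
/-- Mean energy balance of `A` in any world. -/
theorem balance [Fintype V] (hP : T.Planar) {τ : ℂ} (hτ : τ ^ 2 + τ + 1 = 0) {Θ : D → ℂ}
    (h : ∀ d, Θ (T.nxt d) = τ ^ 2 * Θ d) (hg : ∀ d, ¬ T.Good d → Θ d = 0)
    {A : D → Prop} (hA : ∀ d, A (T.nxt d) ↔ A d) (L : (V → Bool) → D → Prop)
    (hL : ∀ σ, Sat T σ (L σ)) (hLA : ∀ σ d, L σ d → A d) :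
    2 ^ Fintype.card V / 4 * ∑ d, ‖rs A Θ d‖ ^ 2 =
      ∑ σ : V → Bool, tot T σ (rs (L σ) Θ) +
        ∑ σ : V → Bool, tot T σ (rs (NonLoc T σ A (L σ)) (rs A Θ)) := by
  rw [← sum_tot T hP hτ (rs_rot h hA) (rs_good hg A), ← Finset.sum_add_distrib]
  exact Finset.sum_congr rfl fun σ _ => tot_balance T (hL σ) (hLA σ) Θ

open Classical in
/-- **Missing energy of `A`.** `L σ` = local classes of `A` (saturated, inside `A`). The energy of `A`
which is not carried by `L σ` is at most the energy of the whole values of the classes which meet `A`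
and are not local. -/
theorem missing_le [Fintype V] (hP : T.Planar) {τ : ℂ} (hτ : τ ^ 2 + τ + 1 = 0) {Θ : D → ℂ}
    (h : ∀ d, Θ (T.nxt d) = τ ^ 2 * Θ d) (hg : ∀ d, ¬ T.Good d → Θ d = 0)
    {A : D → Prop} (hA : ∀ d, A (T.nxt d) ↔ A d) (L : (V → Bool) → D → Prop)
    (hL : ∀ σ, Sat T σ (L σ)) (hLA : ∀ σ d, L σ d → A d) :
    2 ^ Fintype.card V / 4 * ∑ d, ‖rs A Θ d‖ ^ 2 - ∑ σ : V → Bool, tot T σ (rs (L σ) Θ) ≤
      ∑ σ : V → Bool, tot T σ (rs (NonLoc T σ A (L σ)) Θ) := by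
  have e1 := sum_cross_le T hP hτ h hg hA (fun σ => NonLoc T σ A (L σ))
    (fun σ => nonLoc_sat T (hL σ)) (fun σ => cross_nonLoc T (hL σ) (hLA σ))
  have e2 := balance T hP hτ h hg hA L hL hLA
  linarith

end Vale.Agent.P148.R2.H598
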